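/-
Row 210 (S0432), layer OT (optimal transport), architect helper578.
Definitions of the layer.  Master plan: `git show origin/helper928:docs/R210_master.md`.
-/
import Claimed.Agent.R210.Defs

set_option autoImplicit false

open Claims.C0366 Claims.C0366.WeakHessian
open Set Filter MeasureTheory
open scoped ENNReal NNReal Topology BoundedContinuousFunction

namespace Claimed.Agent.R210.OT.Defs

noncomputable section

/-- Weak convergence of a sequence of measures (tested against bounded continuous functions).
For probability measures this is convergence in `ProbabilityMeasure Y` (`ot_wconv_iff`). -/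
def ot_WConv {Y : Type*} [TopologicalSpace Y] [MeasurableSpace Y] (μs : ℕ → Measure Y) (μ : Measure Y) : Prop :=
  ∀ f : Y →ᵇ ℝ, Tendsto (fun n => ∫ x, f x ∂(μs n)) atTop (𝓝 (∫ x, f x ∂μ))

/-- a probability measure as an element of `ProbabilityMeasure Y` -/
def ot_pm {Y : Type*} [MeasurableSpace Y] (μ : Measure Y) (h : IsProbabilityMeasure μ) : ProbabilityMeasure Y := ⟨μ, h⟩

/-- the projections of `X × X × X` onto pairs of coordinates -/
def ot_p12 {X : Type*} (p : X × X × X) : X × X := (p.1, p.2.1)
/-- the projections of `X × X × X` onto pairs of coordinates -/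
def ot_p23 {X : Type*} (p : X × X × X) : X × X := (p.2.1, p.2.2)
/-- the projections of `X × X × X` onto pairs of coordinates -/
def ot_p13 {X : Type*} (p : X × X × X) : X × X := (p.1, p.2.2)

/-- the Lipschitz constant of the truncated Kantorovich potentials of `ot_exists_kpair`:
`T` = truncation level, `D1` = bound of the diameter of the target set -/
def ot_lipConst (T D1 : ℝ) : ℝ≥0 := Real.toNNReal (max T (Real.sqrt (2 * T) + D1 + 1 / 2))

end

end Claimed.Agent.R210.OT.Defs
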