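/-
Row 210 (S0432), layer OT (optimal transport), architect helper578.   OT0: weak convergence of probability measures (bridge to `ProbabilityMeasure`, Prokhorov, Portmanteau).
Master plan: `git show origin/helper928:docs/R210_master.md`; map of the layer: header of `R210/OT/Ifc.lean`.
-/
import Claimed.Agent.R210.OT.Defs

set_option autoImplicit false

open Claims.C0366 Claims.C0366.WeakHessian
open Set Filter MeasureTheory
open scoped ENNReal NNReal Topology BoundedContinuousFunction
open Claimed.Agent.R210.Defs Claimed.Agent.R210.OT.Defs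

namespace Claimed.Agent.R210.OT.Weak

variable {Y : Type*} [MetricSpace Y] [MeasurableSpace Y] [BorelSpace Y] [CompleteSpace Y]
  [TopologicalSpace.SeparableSpace Y]


theorem ot_wconv_iff {μs : ℕ → Measure Y} {μ : Measure Y}
    (h : ∀ n, IsProbabilityMeasure (μs n)) (hμ : IsProbabilityMeasure μ) :
    ot_WConv μs μ ↔ Tendsto (fun n => ot_pm (μs n) (h n)) atTop (𝓝 (ot_pm μ hμ)) := by
  rw [ProbabilityMeasure.tendsto_iff_forall_integral_tendsto]
  rfl

theorem ot_wconv_unique {μs : ℕ → Measure Y} {μ μ' : Measure Y} [IsFiniteMeasure μ] [IsFiniteMeasure μ']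
    (h : ot_WConv μs μ) (h' : ot_WConv μs μ') : μ = μ' := by
  apply ext_of_forall_integral_eq_of_IsFiniteMeasure
  intro f
  exact tendsto_nhds_unique (h f) (h' f)

theorem ot_wconv_prob {μs : ℕ → Measure Y} {μ : Measure Y} [IsFiniteMeasure μ]
    (h : ∀ n, IsProbabilityMeasure (μs n)) (hc : ot_WConv μs μ) : IsProbabilityMeasure μ := by
  have h1 := hc (BoundedContinuousFunction.const Y 1)
  have h2 : (fun n => ∫ x, (BoundedContinuousFunction.const Y (1:ℝ)) x ∂(μs n)) = fun _ => (1:ℝ) := by
    funext n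
    have := h n
    simp
  rw [h2] at h1
  have h3 : (1:ℝ) = ∫ x, (BoundedContinuousFunction.const Y (1:ℝ)) x ∂μ :=
    tendsto_nhds_unique tendsto_const_nhds h1
  simp only [BoundedContinuousFunction.const_apply, integral_const, smul_eq_mul, mul_one] at h3
  constructor
  have h4 : (μ univ).toReal = 1 := h3.symm
  have := (ENNReal.toReal_eq_one_iff _).1 h4
  exact this

theorem ot_wconv_subseq {μs : ℕ → Measure Y} {μ : Measure Y} (hc : ot_WConv μs μ) {φ : ℕ → ℕ}
    (hφ : StrictMono φ) : ot_WConv (μs ∘ φ) μ := by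
  intro f
  exact (hc f).comp hφ.tendsto_atTop

theorem ot_wconv_const (μ : Measure Y) : ot_WConv (fun _ => μ) μ := by
  intro f
  exact tendsto_const_nhds

theorem ot_wconv_map {Z : Type*} [MetricSpace Z] [MeasurableSpace Z] [BorelSpace Z]
    {μs : ℕ → Measure Y} {μ : Measure Y} (hc : ot_WConv μs μ) {f : Y → Z} (hf : Continuous f) :
    ot_WConv (fun n => (μs n).map f) (μ.map f) := by
  intro g
  have key : ∀ ν : Measure Y, ∫ x, g x ∂(ν.map f) = ∫ x, (g.compContinuous ⟨f, hf⟩) x ∂ν := by
    intro ν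
    rw [integral_map hf.aemeasurable g.continuous.aestronglyMeasurable]
    rfl
  simp only [key]
  exact hc _

/-- the limit is concentrated on every closed set on which all the measures are concentrated -/
theorem ot_wconv_closed {μs : ℕ → Measure Y} {μ : Measure Y}
    (h : ∀ n, IsProbabilityMeasure (μs n)) (hμ : IsProbabilityMeasure μ) (hc : ot_WConv μs μ)
    {C : Set Y} (hC : IsClosed C) (h0 : ∀ n, μs n Cᶜ = 0) : μ Cᶜ = 0 := by
  have ht := (ot_wconv_iff h hμ).1 hc
  have h1 := ProbabilityMeasure.le_liminf_measure_open_of_tendsto ht hC.isOpen_compl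
  have h2 : (fun n => ((ot_pm (μs n) (h n) : ProbabilityMeasure Y) : Measure Y) Cᶜ) = fun _ => 0 := by
    funext n
    exact h0 n
  rw [h2] at h1
  simp only [liminf_const] at h1
  exact le_antisymm h1 zero_le

/-- lower semicontinuity of the integral of a nonnegative continuous function -/
theorem ot_lintegral_le_liminf {μs : ℕ → Measure Y} {μ : Measure Y}
    (h : ∀ n, IsProbabilityMeasure (μs n)) (hμ : IsProbabilityMeasure μ) (hc : ot_WConv μs μ)
    {f : Y → ℝ≥0∞} (hf : Continuous f) : ∫⁻ x, f x ∂μ ≤ liminf (fun n => ∫⁻ x, f x ∂(μs n)) atTop := by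
  have ht := (ot_wconv_iff h hμ).1 hc
  have hop : ∀ G, IsOpen G → μ G ≤ atTop.liminf (fun i ↦ μs i G) := fun G hG =>
    ProbabilityMeasure.le_liminf_measure_open_of_tendsto ht hG
  -- truncations
  have hk : ∀ k : ℕ, ∫⁻ x, min (f x) k ∂μ ≤ liminf (fun n => ∫⁻ x, f x ∂(μs n)) atTop := by
    intro k
    have hcont : Continuous fun x => (min (f x) (k:ℝ≥0∞)).toReal := by
      have h1 : Continuous fun x => min (f x) (k:ℝ≥0∞) := hf.min continuous_const
      refine (ENNReal.continuousOn_toReal.comp_continuous h1 ?_)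
      intro x
      exact ne_of_lt (lt_of_le_of_lt (min_le_right _ _) (ENNReal.natCast_lt_top k))
    have h2 := lintegral_le_liminf_lintegral_of_forall_isOpen_measure_le_liminf_measure
      (μ := μ) (μs := μs) hcont (fun x => ENNReal.toReal_nonneg) hop
    have h3 : ∀ x, ENNReal.ofReal ((min (f x) (k:ℝ≥0∞)).toReal) = min (f x) (k:ℝ≥0∞) := by
      intro x
      exact ENNReal.ofReal_toReal
        (ne_of_lt (lt_of_le_of_lt (min_le_right _ _) (ENNReal.natCast_lt_top k)))
    simp only [h3] at h2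
    refine h2.trans ?_
    refine liminf_le_liminf (Eventually.of_forall fun n => ?_)
    exact lintegral_mono fun x => min_le_left _ _
  have hsup : ∫⁻ x, f x ∂μ = ⨆ k : ℕ, ∫⁻ x, min (f x) k ∂μ := by
    rw [← lintegral_iSup]
    · congr 1
      funext x
      apply le_antisymm
      · by_cases hx : f x = ∞
        · rw [hx]
          simp only [le_top, inf_of_le_right]
          exact le_of_eq ENNReal.iSup_natCast.symm
        · obtain ⟨k, hk⟩ := ENNReal.exists_nat_gt hx
          exact le_iSup_of_le k (by rw [min_eq_left hk.le])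
      · exact iSup_le fun k => min_le_left _ _
    · intro k
      exact (hf.min continuous_const).measurable
    · intro a b hab x
      exact min_le_min le_rfl (by exact_mod_cast hab)
  rw [hsup]
  exact iSup_le hk

/-- integrals of continuous functions converge if all the measures live on one compact set -/
theorem ot_integral_tendsto_of_compact {μs : ℕ → Measure Y} {μ : Measure Y}
    (h : ∀ n, IsProbabilityMeasure (μs n)) (hμ : IsProbabilityMeasure μ) (hc : ot_WConv μs μ)
    {K : Set Y} (hK : IsCompact K) (h0 : ∀ n, μs n Kᶜ = 0) {f : Y → ℝ} (hf : ContinuousOn f K) :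
    Tendsto (fun n => ∫ x in K, f x ∂(μs n)) atTop (𝓝 (∫ x in K, f x ∂μ)) := by
  have hμ0 : μ Kᶜ = 0 := ot_wconv_closed h hμ hc hK.isClosed h0
  -- Tietze extension
  have : CompactSpace K := isCompact_iff_compactSpace.1 hK
  let g : K →ᵇ ℝ := BoundedContinuousFunction.mkOfCompact ⟨K.domRestrict f, hf.domRestrict⟩
  obtain ⟨F, -, hF⟩ := BoundedContinuousFunction.exists_extension_norm_eq_of_isClosedEmbedding g
    hK.isClosed.isClosedEmbedding_subtypeVal
  have hFf : ∀ x ∈ K, F x = f x := by
    intro x hx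
    have := congrFun hF ⟨x, hx⟩
    simpa [g] using this
  have key : ∀ ν : Measure Y, ν Kᶜ = 0 → ∫ x in K, f x ∂ν = ∫ x, F x ∂ν := by
    intro ν hν
    have h1 : ∫ x in K, f x ∂ν = ∫ x in K, F x ∂ν :=
      setIntegral_congr_fun hK.measurableSet (fun x hx => (hFf x hx).symm)
    rw [h1]
    have h2 : ν.restrict K = ν := by
      apply Measure.restrict_eq_self_of_ae_mem
      rw [ae_iff]
      exact hν
    rw [h2]
  rw [key μ hμ0]
  simp only [fun n => key (μs n) (h0 n)]
  exact hc F

theorem ot_exists_subseq_of_tight {μs : ℕ → Measure Y}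
    (h : ∀ n, IsProbabilityMeasure (μs n)) (ht : IsTightMeasureSet (Set.range μs)) :
    ∃ (μ : Measure Y) (φ : ℕ → ℕ), IsProbabilityMeasure μ ∧ StrictMono φ ∧ ot_WConv (μs ∘ φ) μ := by
  set S : Set (ProbabilityMeasure Y) := Set.range (fun n => ot_pm (μs n) (h n)) with hS
  have hSt : IsTightMeasureSet {((μ : ProbabilityMeasure Y) : Measure Y) | μ ∈ S} := by
    refine ht.subset ?_
    rintro _ ⟨μ, ⟨n, rfl⟩, rfl⟩
    exact ⟨n, rfl⟩
  have hcomp : IsCompact (closure S) := isCompact_closure_of_isTightMeasureSet hSt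
  obtain ⟨a, -, φ, hφ, hlim⟩ := hcomp.tendsto_subseq
    (x := fun n => ot_pm (μs n) (h n)) (fun n => subset_closure ⟨n, rfl⟩)
  refine ⟨(a : Measure Y), φ, inferInstance, hφ, ?_⟩
  have h' : ∀ n, IsProbabilityMeasure ((μs ∘ φ) n) := fun n => h (φ n)
  have ha : IsProbabilityMeasure (a : Measure Y) := inferInstance
  rw [ot_wconv_iff h' ha]
  exact hlim

theorem ot_exists_subseq_of_compact {μs : ℕ → Measure Y}
    (h : ∀ n, IsProbabilityMeasure (μs n)) {K : Set Y} (hK : IsCompact K) (h0 : ∀ n, μs n Kᶜ = 0) :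
    ∃ (μ : Measure Y) (φ : ℕ → ℕ), IsProbabilityMeasure μ ∧ StrictMono φ ∧ ot_WConv (μs ∘ φ) μ ∧ μ Kᶜ = 0 := by
  have ht : IsTightMeasureSet (Set.range μs) := by
    rw [isTightMeasureSet_iff_exists_isCompact_measure_compl_le]
    intro ε _
    refine ⟨K, hK, ?_⟩
    rintro _ ⟨n, rfl⟩
    rw [h0 n]
    exact zero_le
  obtain ⟨μ, φ, hμ, hφ, hc⟩ := ot_exists_subseq_of_tight h ht
  exact ⟨μ, φ, hμ, hφ, hc,
    ot_wconv_closed (fun n => h (φ n)) hμ hc hK.isClosed (fun n => h0 (φ n))⟩

/-- a weakly convergent sequence of probability measures on a Polish space is tight -/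
theorem ot_tight_of_wconv {μs : ℕ → Measure Y} {μ : Measure Y}
    (h : ∀ n, IsProbabilityMeasure (μs n)) (hμ : IsProbabilityMeasure μ) (hc : ot_WConv μs μ) :
    IsTightMeasureSet (Set.range μs) := by
  have hlim := (ot_wconv_iff h hμ).1 hc
  have hcomp : IsCompact (insert (ot_pm μ hμ) (Set.range (fun n => ot_pm (μs n) (h n)))) :=
    hlim.isCompact_insert_range
  have hcl : IsCompact (closure (insert (ot_pm μ hμ) (Set.range (fun n => ot_pm (μs n) (h n))))) := by
    rw [hcomp.isClosed.closure_eq]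
    exact hcomp
  refine (isTightMeasureSet_of_isCompact_closure hcl).subset ?_
  rintro _ ⟨n, rfl⟩
  exact ⟨ot_pm (μs n) (h n), Set.mem_insert_of_mem _ ⟨n, rfl⟩, rfl⟩

end Claimed.Agent.R210.OT.Weak
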