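/-
Row 210 (S0432), layer OT (optimal transport), architect helper578.   Arzela-Ascoli for equi-Lipschitz, uniformly bounded sequences on a separable space.
Master plan: `git show origin/helper928:docs/R210_master.md`; map of the layer: header of `R210/OT/Ifc.lean`.
-/
import Claimed.Agent.R210.OT.Weak

set_option autoImplicit false

open Claims.C0366 Claims.C0366.WeakHessian
open Set Filter MeasureTheory
open scoped ENNReal NNReal Topology BoundedContinuousFunction
open Claimed.Agent.R210.Defs Claimed.Agent.R210.OT.Defs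

namespace Claimed.Agent.R210.OT.AA

open Claimed.Agent.R210.OT.Weak

variable {X : Type*} [MetricSpace X] [MeasurableSpace X] [BorelSpace X] [CompleteSpace X]
  [TopologicalSpace.SeparableSpace X]

theorem ot_aa {fs : ℕ → X → ℝ} {L : ℝ≥0} {B : ℝ} (hL : ∀ n, LipschitzWith L (fs n)) (hB : ∀ n x, |fs n x| ≤ B) :
    ∃ (φ : ℕ → ℕ) (f : X → ℝ), StrictMono φ ∧ LipschitzWith L f ∧ (∀ x, |f x| ≤ B) ∧
      TendstoLocallyUniformly (fun n => fs (φ n)) f atTop := by
  rcases isEmpty_or_nonempty X with hX | hX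
  · refine ⟨id, fs 0, strictMono_id, hL 0, hB 0, ?_⟩
    intro u hu x
    exact (hX.false x).elim
  set d := TopologicalSpace.denseSeq X with hd
  have hdense : DenseRange d := TopologicalSpace.denseRange_denseSeq X
  have hcomp : IsCompact (Set.pi univ (fun _ : ℕ => Icc (-B) B)) :=
    isCompact_univ_pi (fun _ => isCompact_Icc)
  have hmem : ∀ n, (fun k => fs n (d k)) ∈ Set.pi univ (fun _ : ℕ => Icc (-B) B) := by
    intro n k _
    exact abs_le.mp (hB n (d k))
  obtain ⟨a, -, φ, hφ, ha⟩ := hcomp.tendsto_subseq hmem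
  have hpt : ∀ k, Tendsto (fun n => fs (φ n) (d k)) atTop (𝓝 (a k)) := by
    intro k
    exact (tendsto_pi_nhds.mp ha) k
  have hL0 : (0:ℝ) ≤ L := L.coe_nonneg
  have hsmall : ∀ ε : ℝ, 0 < ε → (L:ℝ) * (ε / (3 * ((L:ℝ) + 1))) ≤ ε / 3 := by
    intro ε hε
    have h1 : (L:ℝ) * (ε / (3 * ((L:ℝ) + 1))) = (ε / 3) * ((L:ℝ) / ((L:ℝ) + 1)) := by
      field_simp
    rw [h1]
    have h2 : (L:ℝ) / ((L:ℝ) + 1) ≤ 1 := by
      rw [div_le_one (by positivity)]
      linarith
    have h3 : 0 ≤ ε / 3 := by positivity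
    nlinarith
  have hcau : ∀ x, CauchySeq (fun n => fs (φ n) x) := by
    intro x
    rw [Metric.cauchySeq_iff]
    intro ε hε
    have hδ : 0 < ε / (3 * ((L:ℝ) + 1)) := by positivity
    obtain ⟨k, hk⟩ := hdense.exists_dist_lt x hδ
    have hc := (hpt k).cauchySeq
    rw [Metric.cauchySeq_iff] at hc
    obtain ⟨N, hN⟩ := hc (ε / 3) (by positivity)
    refine ⟨N, fun m hm n hn => ?_⟩
    have h1 := (hL (φ m)).dist_le_mul x (d k)
    have h2 := (hL (φ n)).dist_le_mul (d k) x
    have h3 := hN m hm n hn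
    have h4 := hsmall ε hε
    have h5 : (L:ℝ) * dist x (d k) ≤ (L:ℝ) * (ε / (3 * ((L:ℝ) + 1))) :=
      mul_le_mul_of_nonneg_left hk.le hL0
    have h6 : dist (d k) x = dist x (d k) := dist_comm _ _
    rw [h6] at h2
    calc dist (fs (φ m) x) (fs (φ n) x)
        ≤ dist (fs (φ m) x) (fs (φ m) (d k)) + dist (fs (φ m) (d k)) (fs (φ n) (d k))
          + dist (fs (φ n) (d k)) (fs (φ n) x) := dist_triangle4 _ _ _ _
      _ < ε := by linarith
  choose f hf using fun x => cauchySeq_tendsto_of_complete (hcau x)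
  have hfL : LipschitzWith L f := by
    refine LipschitzWith.of_dist_le_mul (fun x y => ?_)
    refine le_of_tendsto ((hf x).dist (hf y)) (Eventually.of_forall (fun n => ?_))
    exact (hL (φ n)).dist_le_mul x y
  refine ⟨φ, f, hφ, hfL, fun x => ?_, ?_⟩
  · exact le_of_tendsto (hf x).abs (Eventually.of_forall (fun n => hB (φ n) x))
  · rw [Metric.tendstoLocallyUniformly_iff]
    intro ε hε x
    have hδ : 0 < ε / (3 * ((L:ℝ) + 1)) := by positivity
    refine ⟨Metric.ball x (ε / (3 * ((L:ℝ) + 1))), Metric.ball_mem_nhds x hδ, ?_⟩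
    have hev := (Metric.tendsto_nhds.mp (hf x)) (ε / 3) (by positivity)
    filter_upwards [hev] with n hn y hy
    have hy' : dist y x < ε / (3 * ((L:ℝ) + 1)) := hy
    have h1 := hfL.dist_le_mul y x
    have h2 := (hL (φ n)).dist_le_mul x y
    have h4 := hsmall ε hε
    have h5 : (L:ℝ) * dist y x ≤ (L:ℝ) * (ε / (3 * ((L:ℝ) + 1))) :=
      mul_le_mul_of_nonneg_left hy'.le hL0
    have h6 : dist x y = dist y x := dist_comm _ _
    rw [h6] at h2
    have h7 : dist (f x) (fs (φ n) x) < ε / 3 := by rw [dist_comm]; exact hn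
    calc dist (f y) (fs (φ n) y)
        ≤ dist (f y) (f x) + dist (f x) (fs (φ n) x) + dist (fs (φ n) x) (fs (φ n) y) :=
          dist_triangle4 _ _ _ _
      _ < ε := by linarith

/-- convergence of `∫ f_n dμ_n` (weak convergence on one compact set, locally uniform convergence of continuous functions) -/
theorem ot_integral_tendsto_of_unif {μs : ℕ → Measure X} {μ : Measure X}
    (h : ∀ n, IsProbabilityMeasure (μs n)) (hμ : IsProbabilityMeasure μ) (hc : ot_WConv μs μ)
    {K : Set X} (hK : IsCompact K) (h0 : ∀ n, μs n Kᶜ = 0) {fs : ℕ → X → ℝ} {f : X → ℝ}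
    (hfs : ∀ n, Continuous (fs n)) (hf : TendstoLocallyUniformly fs f atTop) :
    Tendsto (fun n => ∫ x, fs n x ∂(μs n)) atTop (𝓝 (∫ x, f x ∂μ)) := by
  have hfc : Continuous f := hf.continuous (Eventually.of_forall hfs).frequently
  have hμ0 : μ Kᶜ = 0 := ot_wconv_closed h hμ hc hK.isClosed h0
  have hres : ∀ ρ : Measure X, ρ Kᶜ = 0 → ρ.restrict K = ρ := by
    intro ρ hρ
    apply Measure.restrict_eq_self_of_ae_mem
    rw [ae_iff]
    exact hρ
  have hunif : TendstoUniformlyOn fs f atTop K :=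
    (tendstoLocallyUniformlyOn_iff_tendstoUniformlyOn_of_compact hK).mp
      hf.tendstoLocallyUniformlyOn
  have hmain : Tendsto (fun n => ∫ x in K, f x ∂(μs n)) atTop (𝓝 (∫ x in K, f x ∂μ)) :=
    ot_integral_tendsto_of_compact h hμ hc hK h0 hfc.continuousOn
  have hdiff : Tendsto (fun n => ∫ x in K, fs n x ∂(μs n) - ∫ x in K, f x ∂(μs n)) atTop
      (𝓝 0) := by
    rw [Metric.tendsto_nhds]
    intro ε hε
    have hev := (Metric.tendstoUniformlyOn_iff.mp hunif) (ε / 2) (by positivity)
    filter_upwards [hev] with n hn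
    haveI := h n
    have hi1 : IntegrableOn (fs n) K (μs n) := (hfs n).continuousOn.integrableOn_compact hK
    have hi2 : IntegrableOn f K (μs n) := hfc.continuousOn.integrableOn_compact hK
    rw [← integral_sub hi1 hi2, dist_zero_right]
    have hb : ‖∫ x in K, (fs n x - f x) ∂(μs n)‖ ≤ (ε / 2) * (μs n).real K := by
      apply norm_setIntegral_le_of_norm_le_const (measure_lt_top _ _)
      intro x hx
      have := hn x hx
      rw [dist_comm, Real.dist_eq] at this
      exact this.le
    have hle : (μs n).real K ≤ 1 := measureReal_le_one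
    have : (ε / 2) * (μs n).real K ≤ ε / 2 := by
      have : 0 ≤ ε / 2 := by positivity
      nlinarith
    linarith
  have hsum := hdiff.add hmain
  simp only [sub_add_cancel, zero_add] at hsum
  have e1 : ∀ n, ∫ x, fs n x ∂(μs n) = ∫ x in K, fs n x ∂(μs n) := by
    intro n
    rw [hres _ (h0 n)]
  have e2 : ∫ x, f x ∂μ = ∫ x in K, f x ∂μ := by
    rw [hres _ hμ0]
  simp only [e1, e2]
  exact hsum

end Claimed.Agent.R210.OT.AA
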