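/-
Row 210 (S0432), layer OT (optimal transport), architect helper578.   OT1 (elementary part), OT3 (sub-plans), elementary parts of OT6.
Master plan: `git show origin/helper928:docs/R210_master.md`; map of the layer: header of `R210/OT/Ifc.lean`.
-/
import Claimed.Agent.R210.OT.Defs

set_option autoImplicit false

open Claims.C0366 Claims.C0366.WeakHessian
open Set Filter MeasureTheory
open scoped ENNReal NNReal Topology BoundedContinuousFunction
open Claimed.Agent.R210.Defs Claimed.Agent.R210.OT.Defs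

namespace Claimed.Agent.R210.OT.Basic

variable {X : Type*} [MetricSpace X] [MeasurableSpace X] [BorelSpace X] [CompleteSpace X]
  [TopologicalSpace.SeparableSpace X]


theorem ot_measurable_cost : Measurable (fun p : X × X => (edist p.1 p.2) ^ 2) := by
  have : SecondCountableTopology X := UniformSpace.secondCountable_of_separable X
  exact (measurable_edist).pow_const 2

theorem ot_coupling_prob {q : Measure (X × X)} {μ ν : Measure X} [IsProbabilityMeasure μ] (h : IsCoupling q μ ν) :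
    IsProbabilityMeasure q := by
  constructor
  have h1 : (Measure.map Prod.fst q) univ = 1 := by rw [h.1]; exact measure_univ
  rwa [Measure.map_apply measurable_fst MeasurableSet.univ, preimage_univ] at h1

theorem ot_coupling_swap {q : Measure (X × X)} {μ ν : Measure X} (h : IsCoupling q μ ν) :
    IsCoupling (q.map Prod.swap) ν μ := by
  constructor
  · rw [Measure.map_map measurable_fst measurable_swap]
    exact h.2
  · rw [Measure.map_map measurable_snd measurable_swap]
    exact h.1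

theorem ot_cost_swap (q : Measure (X × X)) :
    QuadraticTransportCost (q.map Prod.swap) = QuadraticTransportCost q := by
  unfold QuadraticTransportCost
  rw [lintegral_map ot_measurable_cost measurable_swap]
  simp only [Prod.fst_swap, Prod.snd_swap, edist_comm]

theorem ot_swap_swap (q : Measure (X × X)) : (q.map Prod.swap).map Prod.swap = q := by
  rw [Measure.map_map measurable_swap measurable_swap]
  simp

theorem ot_optimal_swap {q : Measure (X × X)} {μ ν : Measure X} (h : IsOptimalCoupling q μ ν) :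
    IsOptimalCoupling (q.map Prod.swap) ν μ := by
  refine ⟨ot_coupling_swap h.1, fun q' hq' => ?_⟩
  rw [ot_cost_swap, ← ot_cost_swap q']
  exact h.2 _ (ot_coupling_swap hq')

theorem ot_coupling_prod (μ ν : Measure X) [IsProbabilityMeasure μ] [IsProbabilityMeasure ν] :
    IsCoupling (μ.prod ν) μ ν := by
  constructor
  · rw [Measure.map_fst_prod]; simp
  · rw [Measure.map_snd_prod]; simp

theorem ot_W2sq_le_cost {q : Measure (X × X)} {μ ν : Measure X} (h : IsCoupling q μ ν) :
    W2sq μ ν ≤ QuadraticTransportCost q :=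
  iInf₂_le q h

theorem ot_W2sq_eq_cost {q : Measure (X × X)} {μ ν : Measure X} (h : IsOptimalCoupling q μ ν) :
    W2sq μ ν = QuadraticTransportCost q :=
  le_antisymm (ot_W2sq_le_cost h.1) (le_iInf₂ fun q' hq' => h.2 q' hq')

theorem ot_optimal_of_cost_le {q : Measure (X × X)} {μ ν : Measure X} (h : IsCoupling q μ ν)
    (hc : QuadraticTransportCost q ≤ W2sq μ ν) : IsOptimalCoupling q μ ν :=
  ⟨h, fun _ hq' => hc.trans (ot_W2sq_le_cost hq')⟩

theorem ot_measurable_diag : Measurable (fun x : X => (x, x)) := measurable_id.prodMk measurable_id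

theorem ot_coupling_diag (μ : Measure X) : IsCoupling (μ.map (fun x => (x, x))) μ μ := by
  constructor
  · rw [Measure.map_map measurable_fst ot_measurable_diag]
    exact Measure.map_id
  · rw [Measure.map_map measurable_snd ot_measurable_diag]
    exact Measure.map_id

theorem ot_cost_diag (μ : Measure X) : QuadraticTransportCost (μ.map (fun x => (x, x))) = 0 := by
  unfold QuadraticTransportCost
  rw [lintegral_map ot_measurable_cost ot_measurable_diag]
  simp

theorem ot_W2sq_self (μ : Measure X) : W2sq μ μ = 0 := by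
  have h := ot_W2sq_le_cost (ot_coupling_diag μ)
  rw [ot_cost_diag] at h
  exact le_antisymm h bot_le

theorem ot_W2sq_comm (μ ν : Measure X) : W2sq μ ν = W2sq ν μ := by
  have key : ∀ μ ν : Measure X, W2sq μ ν ≤ W2sq ν μ := by
    intro μ ν
    refine le_iInf₂ fun q hq => ?_
    rw [← ot_cost_swap q]
    exact ot_W2sq_le_cost (ot_coupling_swap hq)
  exact le_antisymm (key μ ν) (key ν μ)

/-- a coupling is concentrated on the product of two sets carrying the marginals -/
theorem ot_coupling_conc {q : Measure (X × X)} {μ ν : Measure X} (h : IsCoupling q μ ν) {S0 S1 : Set X}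
    (hS0 : MeasurableSet S0) (hS1 : MeasurableSet S1)
    (h0 : μ S0ᶜ = 0) (h1 : ν S1ᶜ = 0) : q (S0 ×ˢ S1)ᶜ = 0 := by
  have e0 : q (Prod.fst ⁻¹' S0ᶜ) = 0 := by
    rw [← Measure.map_apply measurable_fst hS0.compl, h.1, h0]
  have e1 : q (Prod.snd ⁻¹' S1ᶜ) = 0 := by
    rw [← Measure.map_apply measurable_snd hS1.compl, h.2, h1]
  refine measure_mono_null ?_ (measure_union_null e0 e1)
  intro p hp
  simp only [mem_compl_iff, mem_prod, not_and_or] at hp
  exact hp


theorem ot_add_sq_le (a b : ℝ≥0∞) : (a + b) ^ 2 ≤ 2 * a ^ 2 + 2 * b ^ 2 := by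
  by_cases ha : a = ∞
  · simp [ha]
  by_cases hb : b = ∞
  · simp [hb]
  lift a to ℝ≥0 using ha
  lift b to ℝ≥0 using hb
  norm_cast
  rw [← NNReal.coe_le_coe]
  push_cast
  nlinarith [sq_nonneg ((a : ℝ) - b)]

theorem ot_edist_sq_le (x y o1 o2 : X) :
    edist x y ^ 2 ≤ 2 * edist x o1 ^ 2 + (4 * edist o1 o2 ^ 2 + 4 * edist y o2 ^ 2) := by
  have h1 : edist x y ≤ edist x o1 + (edist o1 o2 + edist y o2) := by
    calc edist x y ≤ edist x o1 + edist o1 y := edist_triangle _ _ _
      _ ≤ edist x o1 + (edist o1 o2 + edist o2 y) := by gcongr; exact edist_triangle _ _ _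
      _ = edist x o1 + (edist o1 o2 + edist y o2) := by rw [edist_comm o2 y]
  calc edist x y ^ 2 ≤ (edist x o1 + (edist o1 o2 + edist y o2)) ^ 2 := by gcongr
    _ ≤ 2 * edist x o1 ^ 2 + 2 * (edist o1 o2 + edist y o2) ^ 2 := ot_add_sq_le _ _
    _ ≤ 2 * edist x o1 ^ 2 + 2 * (2 * edist o1 o2 ^ 2 + 2 * edist y o2 ^ 2) := by
        gcongr; exact ot_add_sq_le _ _
    _ = 2 * edist x o1 ^ 2 + (4 * edist o1 o2 ^ 2 + 4 * edist y o2 ^ 2) := by ring

theorem ot_W2sq_lt_top {μ ν : Measure X} [IsProbabilityMeasure μ] [IsProbabilityMeasure ν]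
    (hμ : HasSecondMoment μ) (hν : HasSecondMoment ν) : W2sq μ ν < ∞ := by
  obtain ⟨o1, h1⟩ := hμ
  obtain ⟨o2, h2⟩ := hν
  refine lt_of_le_of_lt (ot_W2sq_le_cost (ot_coupling_prod μ ν)) ?_
  have hm1 : Measurable (fun x : X => edist x o1 ^ 2) := (measurable_edist_left).pow_const 2
  have hm2 : Measurable (fun x : X => edist x o2 ^ 2) := (measurable_edist_left).pow_const 2
  have hb : QuadraticTransportCost (μ.prod ν)
      ≤ ∫⁻ p : X × X, (2 * edist p.1 o1 ^ 2 + (4 * edist o1 o2 ^ 2 + 4 * edist p.2 o2 ^ 2)) ∂(μ.prod ν) :=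
    lintegral_mono fun p => ot_edist_sq_le p.1 p.2 o1 o2
  refine lt_of_le_of_lt hb ?_
  have hmA : Measurable (fun p : X × X => 2 * edist p.1 o1 ^ 2) :=
    (hm1.comp measurable_fst).const_mul 2
  have hmB : Measurable (fun p : X × X => 4 * edist p.2 o2 ^ 2) :=
    (hm2.comp measurable_snd).const_mul 4
  have hmA' : Measurable (fun p : X × X => edist p.1 o1 ^ 2) := hm1.comp measurable_fst
  have hmB' : Measurable (fun p : X × X => edist p.2 o2 ^ 2) := hm2.comp measurable_snd
  have e1 : ∫⁻ p : X × X, edist p.1 o1 ^ 2 ∂(μ.prod ν) = ∫⁻ x, edist x o1 ^ 2 ∂μ := by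
    rw [← lintegral_map hm1 measurable_fst, (ot_coupling_prod μ ν).1]
  have e2 : ∫⁻ p : X × X, edist p.2 o2 ^ 2 ∂(μ.prod ν) = ∫⁻ x, edist x o2 ^ 2 ∂ν := by
    rw [← lintegral_map hm2 measurable_snd, (ot_coupling_prod μ ν).2]
  rw [lintegral_add_left hmA, lintegral_add_left measurable_const, lintegral_const,
    lintegral_const_mul _ hmA', lintegral_const_mul _ hmB', e1, e2]
  have hfin : edist o1 o2 ^ 2 ≠ ∞ := ENNReal.pow_ne_top (edist_ne_top _ _)
  refine ENNReal.add_lt_top.2 ⟨ENNReal.mul_lt_top (by simp) h1, ENNReal.add_lt_top.2 ⟨?_, ENNReal.mul_lt_top (by simp) h2⟩⟩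
  simp only [measure_univ, mul_one]
  exact ENNReal.mul_lt_top (by simp) hfin.lt_top

theorem ot_secondMoment_of_conc {μ : Measure X} [IsProbabilityMeasure μ] {S : Set X} (hS : Bornology.IsBounded S)
    (h0 : μ Sᶜ = 0) : HasSecondMoment μ := by
  have hne : S.Nonempty := by
    by_contra hcon
    rw [not_nonempty_iff_eq_empty] at hcon
    rw [hcon, compl_empty, measure_univ] at h0
    exact one_ne_zero h0
  obtain ⟨o, ho⟩ := hne
  obtain ⟨D, hD⟩ := hS.subset_closedBall o
  refine ⟨o, ?_⟩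
  have hae : ∀ᵐ x ∂μ, edist x o ^ 2 ≤ ENNReal.ofReal D ^ 2 := by
    have : ∀ᵐ x ∂μ, x ∈ S := by
      rw [ae_iff]; exact h0
    filter_upwards [this] with x hx
    have h1 : dist x o ≤ D := hD hx
    gcongr
    rw [edist_dist]
    exact ENNReal.ofReal_le_ofReal h1
  refine lt_of_le_of_lt (lintegral_mono_ae hae) ?_
  rw [lintegral_const, measure_univ, mul_one]
  exact ENNReal.pow_lt_top ENNReal.ofReal_lt_top


theorem ot_cost_add (q r : Measure (X × X)) :
    QuadraticTransportCost (q + r) = QuadraticTransportCost q + QuadraticTransportCost r :=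
  lintegral_add_measure _ _ _

theorem ot_cost_smul (c : ℝ≥0∞) (q : Measure (X × X)) :
    QuadraticTransportCost (c • q) = c * QuadraticTransportCost q := by
  unfold QuadraticTransportCost
  rw [lintegral_smul_measure, smul_eq_mul]

theorem ot_coupling_add {q r : Measure (X × X)} {μ ν α β : Measure X} (h : IsCoupling q μ ν)
    (h' : IsCoupling r α β) : IsCoupling (q + r) (μ + α) (ν + β) := by
  constructor
  · rw [Measure.map_add _ _ measurable_fst, h.1, h'.1]
  · rw [Measure.map_add _ _ measurable_snd, h.2, h'.2]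

theorem ot_coupling_smul (c : ℝ≥0∞) {q : Measure (X × X)} {μ ν : Measure X} (h : IsCoupling q μ ν) :
    IsCoupling (c • q) (c • μ) (c • ν) := by
  constructor
  · rw [Measure.map_smul, h.1]
  · rw [Measure.map_smul, h.2]

theorem ot_exists_rest {q q' : Measure (X × X)} [IsFiniteMeasure q] (hle : q' ≤ q) : ∃ r : Measure (X × X), q = q' + r := by
  have : IsFiniteMeasure q' := isFiniteMeasure_of_le q hle
  exact ⟨q - q', by rw [add_comm, Measure.sub_add_cancel_of_le hle]⟩

theorem ot_coupling_replace {μ ν : Measure X} {q' q'' r : Measure (X × X)} (hq : IsCoupling (q' + r) μ ν)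
    (h1 : q''.map Prod.fst = q'.map Prod.fst) (h2 : q''.map Prod.snd = q'.map Prod.snd) :
    IsCoupling (q'' + r) μ ν := by
  constructor
  · rw [Measure.map_add _ _ measurable_fst, h1, ← Measure.map_add _ _ measurable_fst, hq.1]
  · rw [Measure.map_add _ _ measurable_snd, h2, ← Measure.map_add _ _ measurable_snd, hq.2]

/-- unnormalised form of the optimality of sub-plans -/
theorem ot_subplan_le {μ ν : Measure X} {q q' q'' : Measure (X × X)} [IsFiniteMeasure q] (hq : IsOptimalCoupling q μ ν)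
    (hfin : QuadraticTransportCost q ≠ ∞) (hle : q' ≤ q)
    (h1 : q''.map Prod.fst = q'.map Prod.fst) (h2 : q''.map Prod.snd = q'.map Prod.snd) :
    QuadraticTransportCost q' ≤ QuadraticTransportCost q'' := by
  obtain ⟨r, rfl⟩ := ot_exists_rest hle
  have h3 := hq.2 _ (ot_coupling_replace hq.1 h1 h2)
  rw [ot_cost_add, ot_cost_add] at h3
  rw [ot_cost_add] at hfin
  have hr : QuadraticTransportCost r ≠ ∞ := fun h => hfin (by rw [h]; simp)
  exact (ENNReal.add_le_add_iff_right hr).1 h3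

theorem ot_subplan {μ ν : Measure X} {q q' : Measure (X × X)} [IsFiniteMeasure q] (hq : IsOptimalCoupling q μ ν)
    (hfin : QuadraticTransportCost q ≠ ∞) (hle : q' ≤ q) (h0 : q' ≠ 0) :
    IsOptimalCoupling ((q' univ)⁻¹ • q') (((q' univ)⁻¹ • q').map Prod.fst) (((q' univ)⁻¹ • q').map Prod.snd) := by
  have : IsFiniteMeasure q' := isFiniteMeasure_of_le q hle
  have hc0 : q' univ ≠ 0 := fun h => h0 (Measure.measure_univ_eq_zero.1 h)
  have hc1 : q' univ ≠ ∞ := measure_ne_top _ _
  refine ⟨⟨rfl, rfl⟩, fun p hp => ?_⟩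
  have e : ∀ m : Measure X, (q' univ) • ((q' univ)⁻¹ • m) = m := by
    intro m
    rw [smul_smul, ENNReal.mul_inv_cancel hc0 hc1, one_smul]
  have h1 : ((q' univ) • p).map Prod.fst = q'.map Prod.fst := by
    rw [Measure.map_smul, hp.1, Measure.map_smul, e]
  have h2 : ((q' univ) • p).map Prod.snd = q'.map Prod.snd := by
    rw [Measure.map_smul, hp.2, Measure.map_smul, e]
  have h3 := ot_subplan_le hq hfin hle h1 h2
  rw [ot_cost_smul] at h3
  rw [ot_cost_smul]
  calc (q' univ)⁻¹ * QuadraticTransportCost q'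
      ≤ (q' univ)⁻¹ * (q' univ * QuadraticTransportCost p) := by gcongr
    _ = QuadraticTransportCost p := by
        rw [← mul_assoc, ENNReal.inv_mul_cancel hc0 hc1, one_mul]

theorem ot_replace {μ ν : Measure X} {q' q'' r : Measure (X × X)} (hq : IsOptimalCoupling (q' + r) μ ν)
    (h1 : q''.map Prod.fst = q'.map Prod.fst) (h2 : q''.map Prod.snd = q'.map Prod.snd)
    (hc : QuadraticTransportCost q'' ≤ QuadraticTransportCost q') : IsOptimalCoupling (q'' + r) μ ν := by
  refine ⟨ot_coupling_replace hq.1 h1 h2, fun p hp => ?_⟩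
  refine le_trans ?_ (hq.2 p hp)
  rw [ot_cost_add, ot_cost_add]
  gcongr

theorem ot_le_tv {η μ' ν' : Measure X} [IsFiniteMeasure η] [IsFiniteMeasure μ'] [IsFiniteMeasure ν']
    (hm : μ' univ = ν' univ) {S : Set X} {D : ℝ} (hS : ∀ x ∈ S, ∀ y ∈ S, dist x y ≤ D) (hSm : MeasurableSet S)
    (h1 : μ' Sᶜ = 0) (h2 : ν' Sᶜ = 0) : W2sq (η + μ') (η + ν') ≤ ENNReal.ofReal (D ^ 2) * μ' univ := by
  by_cases hz : μ' univ = 0
  · have e1 : μ' = 0 := Measure.measure_univ_eq_zero.1 hz
    have e2 : ν' = 0 := Measure.measure_univ_eq_zero.1 (hm ▸ hz)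
    rw [e1, e2, add_zero, ot_W2sq_self]
    exact bot_le
  have hc1 : μ' univ ≠ ∞ := measure_ne_top _ _
  have hcp : IsCoupling ((μ' univ)⁻¹ • μ'.prod ν') μ' ν' := by
    constructor
    · rw [Measure.map_smul, Measure.map_fst_prod, smul_smul, ← hm, ENNReal.inv_mul_cancel hz hc1, one_smul]
    · rw [Measure.map_smul, Measure.map_snd_prod, smul_smul, ENNReal.inv_mul_cancel hz hc1, one_smul]
  have hc := ot_W2sq_le_cost (ot_coupling_add (ot_coupling_diag η) hcp)
  refine hc.trans ?_
  rw [ot_cost_add, ot_cost_diag, zero_add, ot_cost_smul]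
  have hnull : (μ'.prod ν') (S ×ˢ S)ᶜ = 0 := by
    have a1 : (μ'.prod ν') (Sᶜ ×ˢ univ) = 0 := by rw [Measure.prod_prod, h1, zero_mul]
    have a2 : (μ'.prod ν') (univ ×ˢ Sᶜ) = 0 := by rw [Measure.prod_prod, h2, mul_zero]
    refine measure_mono_null ?_ (measure_union_null a1 a2)
    intro p hp
    simp only [mem_compl_iff, mem_prod, not_and_or] at hp
    rcases hp with hp | hp
    · exact Or.inl ⟨hp, mem_univ _⟩
    · exact Or.inr ⟨mem_univ _, hp⟩
  have hae : ∀ᵐ p ∂(μ'.prod ν'), edist p.1 p.2 ^ 2 ≤ ENNReal.ofReal (D ^ 2) := by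
    have : ∀ᵐ p ∂(μ'.prod ν'), p ∈ S ×ˢ S := by
      rw [ae_iff]; exact hnull
    filter_upwards [this] with p hp
    have h3 : dist p.1 p.2 ≤ D := hS _ hp.1 _ hp.2
    rw [edist_dist, ← ENNReal.ofReal_pow dist_nonneg]
    exact ENNReal.ofReal_le_ofReal (pow_le_pow_left₀ dist_nonneg h3 2)
  have hb : QuadraticTransportCost (μ'.prod ν') ≤ ENNReal.ofReal (D ^ 2) * (μ' univ * ν' univ) := by
    refine (lintegral_mono_ae hae).trans ?_
    rw [lintegral_const, ← univ_prod_univ, Measure.prod_prod]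
  calc (μ' univ)⁻¹ * QuadraticTransportCost (μ'.prod ν')
      ≤ (μ' univ)⁻¹ * (ENNReal.ofReal (D ^ 2) * (μ' univ * ν' univ)) := by gcongr
    _ = ENNReal.ofReal (D ^ 2) * (((μ' univ)⁻¹ * μ' univ) * ν' univ) := by ring
    _ = ENNReal.ofReal (D ^ 2) * μ' univ := by
        rw [ENNReal.inv_mul_cancel hz hc1, one_mul, hm]

theorem ot_mul_W2sq (μ ν : Measure X) {s : ℝ≥0∞} (hs0 : s ≠ 0) (hs : s ≠ ∞) :
    s * W2sq μ ν = ⨅ (q : Measure (X × X)) (_ : IsCoupling q μ ν), s * QuadraticTransportCost q := by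
  unfold W2sq
  rw [ENNReal.mul_iInf_of_ne hs0 hs]
  refine iInf_congr fun q => ?_
  rw [ENNReal.mul_iInf_of_ne hs0 hs]

theorem ot_convex_aux (μ₀ ν₀ : Measure X) {α β : Measure X} {r : Measure (X × X)} (hr : IsCoupling r α β)
    {s : ℝ≥0∞} (hs : s ≠ ∞) :
    W2sq (s • μ₀ + α) (s • ν₀ + β) ≤ s * W2sq μ₀ ν₀ + QuadraticTransportCost r := by
  by_cases hs0 : s = 0
  · simp only [hs0, zero_smul, zero_add, zero_mul]
    exact ot_W2sq_le_cost hr
  rw [ot_mul_W2sq μ₀ ν₀ hs0 hs, ENNReal.iInf₂_add]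
  refine le_iInf₂ fun q hq => ?_
  rw [← ot_cost_smul, ← ot_cost_add]
  exact ot_W2sq_le_cost (ot_coupling_add (ot_coupling_smul s hq) hr)

theorem ot_coupling_zero : IsCoupling (0 : Measure (X × X)) (0 : Measure X) 0 := by
  constructor <;> simp

theorem ot_convex (μ₀ μ₁ ν₀ ν₁ : Measure X) {s t : ℝ≥0∞} (hs : s ≠ ∞) (ht : t ≠ ∞) :
    W2sq (s • μ₀ + t • μ₁) (s • ν₀ + t • ν₁) ≤ s * W2sq μ₀ ν₀ + t * W2sq μ₁ ν₁ := by
  by_cases ht0 : t = 0
  · have h := ot_convex_aux μ₀ ν₀ (ot_coupling_zero (X := X)) hs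
    simp only [ht0, zero_smul, zero_mul]
    refine h.trans ?_
    simp [QuadraticTransportCost]
  rw [ot_mul_W2sq μ₁ ν₁ ht0 ht, ENNReal.add_iInf₂]
  refine le_iInf₂ fun q hq => ?_
  rw [← ot_cost_smul]
  exact ot_convex_aux μ₀ ν₀ (ot_coupling_smul t hq) hs

end Claimed.Agent.R210.OT.Basic
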