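/-
Row 210 (S0432), layer OT (optimal transport), architect helper578.   OT1: existence of optimal couplings.
Master plan: `git show origin/helper928:docs/R210_master.md`; map of the layer: header of `R210/OT/Ifc.lean`.
-/
import Claimed.Agent.R210.OT.Weak
import Claimed.Agent.R210.OT.Basic

set_option autoImplicit false

open Claims.C0366 Claims.C0366.WeakHessian
open Set Filter MeasureTheory
open scoped ENNReal NNReal Topology BoundedContinuousFunction
open Claimed.Agent.R210.Defs Claimed.Agent.R210.OT.Defs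

namespace Claimed.Agent.R210.OT.Exist

open Claimed.Agent.R210.OT.Weak Claimed.Agent.R210.OT.Basic

variable {X : Type*} [MetricSpace X] [MeasurableSpace X] [BorelSpace X] [CompleteSpace X]
  [TopologicalSpace.SeparableSpace X]


theorem ot_coupling_tight {μs νs : ℕ → Measure X} {qs : ℕ → Measure (X × X)}
    (hq : ∀ n, IsCoupling (qs n) (μs n) (νs n))
    (h1 : IsTightMeasureSet (Set.range μs)) (h2 : IsTightMeasureSet (Set.range νs)) :
    IsTightMeasureSet (Set.range qs) := by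
  rw [isTightMeasureSet_iff_exists_isCompact_measure_compl_le] at h1 h2 ⊢
  intro ε hε
  have hε2 : 0 < ε / 2 := ENNReal.half_pos hε.ne'
  obtain ⟨K1, hK1, hμ⟩ := h1 (ε / 2) hε2
  obtain ⟨K2, hK2, hν⟩ := h2 (ε / 2) hε2
  refine ⟨K1 ×ˢ K2, hK1.prod hK2, ?_⟩
  rintro _ ⟨n, rfl⟩
  have hsub : (K1 ×ˢ K2)ᶜ ⊆ Prod.fst ⁻¹' K1ᶜ ∪ Prod.snd ⁻¹' K2ᶜ := by
    intro p hp
    by_contra hcon
    simp only [mem_union, mem_preimage, mem_compl_iff, not_or, not_not] at hcon
    exact hp ⟨hcon.1, hcon.2⟩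
  calc qs n (K1 ×ˢ K2)ᶜ ≤ qs n (Prod.fst ⁻¹' K1ᶜ ∪ Prod.snd ⁻¹' K2ᶜ) := measure_mono hsub
    _ ≤ qs n (Prod.fst ⁻¹' K1ᶜ) + qs n (Prod.snd ⁻¹' K2ᶜ) := measure_union_le _ _
    _ = μs n K1ᶜ + νs n K2ᶜ := by
        rw [← (hq n).1, ← (hq n).2, Measure.map_apply measurable_fst hK1.measurableSet.compl,
          Measure.map_apply measurable_snd hK2.measurableSet.compl]
    _ ≤ ε / 2 + ε / 2 := add_le_add (hμ _ ⟨n, rfl⟩) (hν _ ⟨n, rfl⟩)
    _ = ε := ENNReal.add_halves ε

/-- compactness of couplings, lower semicontinuity of the cost -/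
theorem ot_coupling_subseq {μs νs : ℕ → Measure X} {μ ν : Measure X}
    (hμs : ∀ n, IsProbabilityMeasure (μs n)) (hνs : ∀ n, IsProbabilityMeasure (νs n))
    (hμ : IsProbabilityMeasure μ) (hν : IsProbabilityMeasure ν) (h1 : ot_WConv μs μ) (h2 : ot_WConv νs ν)
    {qs : ℕ → Measure (X × X)} (hq : ∀ n, IsCoupling (qs n) (μs n) (νs n)) :
    ∃ (q : Measure (X × X)) (φ : ℕ → ℕ), StrictMono φ ∧ ot_WConv (qs ∘ φ) q ∧ IsCoupling q μ ν ∧
      QuadraticTransportCost q ≤ liminf (fun n => QuadraticTransportCost (qs (φ n))) atTop := by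
  haveI : SecondCountableTopology X := UniformSpace.secondCountable_of_separable X
  have hqp : ∀ n, IsProbabilityMeasure (qs n) := fun n => by
    haveI := hμs n
    exact ot_coupling_prob (hq n)
  have ht := ot_coupling_tight hq (ot_tight_of_wconv hμs hμ h1) (ot_tight_of_wconv hνs hν h2)
  obtain ⟨q, φ, hqprob, hφ, hconv⟩ := ot_exists_subseq_of_tight hqp ht
  refine ⟨q, φ, hφ, hconv, ⟨?_, ?_⟩, ?_⟩
  · have a1 : ot_WConv (fun n => ((qs ∘ φ) n).map Prod.fst) (q.map Prod.fst) :=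
      ot_wconv_map hconv continuous_fst
    have a2 : (fun n => ((qs ∘ φ) n).map Prod.fst) = μs ∘ φ := funext fun n => (hq (φ n)).1
    rw [a2] at a1
    exact ot_wconv_unique a1 (ot_wconv_subseq h1 hφ)
  · have a1 : ot_WConv (fun n => ((qs ∘ φ) n).map Prod.snd) (q.map Prod.snd) :=
      ot_wconv_map hconv continuous_snd
    have a2 : (fun n => ((qs ∘ φ) n).map Prod.snd) = νs ∘ φ := funext fun n => (hq (φ n)).2
    rw [a2] at a1
    exact ot_wconv_unique a1 (ot_wconv_subseq h2 hφ)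
  · exact ot_lintegral_le_liminf (fun n => hqp (φ n)) hqprob hconv
      (f := fun p : X × X => edist p.1 p.2 ^ 2) ((ENNReal.continuous_pow 2).comp continuous_edist)

theorem ot_exists_optimal (μ ν : Measure X) [IsProbabilityMeasure μ] [IsProbabilityMeasure ν] :
    ∃ q : Measure (X × X), IsOptimalCoupling q μ ν := by
  by_cases htop : W2sq μ ν = ∞
  · exact ⟨μ.prod ν, ot_optimal_of_cost_le (ot_coupling_prod μ ν) (by rw [htop]; exact le_top)⟩
  · have hex : ∀ n : ℕ, ∃ q : Measure (X × X), IsCoupling q μ ν ∧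
        QuadraticTransportCost q ≤ W2sq μ ν + (((n + 1 : ℕ) : ℝ≥0∞))⁻¹ := by
      intro n
      have hlt : W2sq μ ν < W2sq μ ν + (((n + 1 : ℕ) : ℝ≥0∞))⁻¹ :=
        ENNReal.lt_add_right htop (by simp)
      have hlt' : (⨅ (q : Measure (X × X)) (_ : IsCoupling q μ ν), QuadraticTransportCost q)
          < W2sq μ ν + (((n + 1 : ℕ) : ℝ≥0∞))⁻¹ := hlt
      obtain ⟨q, hq⟩ := iInf_lt_iff.mp hlt'
      obtain ⟨hc, hq⟩ := iInf_lt_iff.mp hq
      exact ⟨q, hc, hq.le⟩
    choose qs hqs hcost using hex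
    obtain ⟨q, φ, hφ, -, hq, hle⟩ := ot_coupling_subseq (μs := fun _ => μ) (νs := fun _ => ν)
      (fun _ => inferInstance) (fun _ => inferInstance) inferInstance inferInstance
      (ot_wconv_const μ) (ot_wconv_const ν) hqs
    refine ⟨q, ot_optimal_of_cost_le hq (hle.trans ?_)⟩
    have h0 : Tendsto (fun n : ℕ => (((φ n + 1 : ℕ) : ℝ≥0∞))⁻¹) atTop (𝓝 0) :=
      ENNReal.tendsto_inv_nat_nhds_zero.comp
        (tendsto_atTop_mono (fun n => Nat.le_succ (φ n)) hφ.tendsto_atTop)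
    have ht : Tendsto (fun n : ℕ => W2sq μ ν + (((φ n + 1 : ℕ) : ℝ≥0∞))⁻¹) atTop
        (𝓝 (W2sq μ ν)) := by
      have := (tendsto_const_nhds (x := W2sq μ ν)).add h0
      simpa using this
    calc liminf (fun n => QuadraticTransportCost (qs (φ n))) atTop
        ≤ liminf (fun n : ℕ => W2sq μ ν + (((φ n + 1 : ℕ) : ℝ≥0∞))⁻¹) atTop :=
          liminf_le_liminf (Eventually.of_forall fun n => hcost (φ n))
      _ = W2sq μ ν := ht.liminf_eq

theorem ot_eq_of_W2sq_eq_zero {μ ν : Measure X} [IsProbabilityMeasure μ] [IsProbabilityMeasure ν]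
    (h : W2sq μ ν = 0) : μ = ν := by
  have : SecondCountableTopology X := UniformSpace.secondCountable_of_separable X
  obtain ⟨q, hq⟩ := ot_exists_optimal μ ν
  have hc : QuadraticTransportCost q = 0 := by rw [← ot_W2sq_eq_cost hq, h]
  have hm : Measurable fun p : X × X => (edist p.1 p.2) ^ 2 := measurable_edist.pow_const 2
  have hae : (fun p : X × X => (edist p.1 p.2) ^ 2) =ᵐ[q] 0 := (lintegral_eq_zero_iff hm).mp hc
  have hfs : (Prod.fst : X × X → X) =ᵐ[q] Prod.snd := by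
    filter_upwards [hae] with p hp
    have : edist p.1 p.2 = 0 := by simpa using hp
    exact edist_eq_zero.mp this
  rw [← hq.1.1, ← hq.1.2]
  exact Measure.map_congr hfs

end Claimed.Agent.R210.OT.Exist
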