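/-
Row 210 (S0432), layer OT (optimal transport), architect helper578.   OT2: gluing and the triangle inequality.
Master plan: `git show origin/helper928:docs/R210_master.md`; map of the layer: header of `R210/OT/Ifc.lean`.
-/
import Claimed.Agent.R210.OT.Exist

set_option autoImplicit false

open Claims.C0366 Claims.C0366.WeakHessian
open Set Filter MeasureTheory
open scoped ENNReal NNReal Topology BoundedContinuousFunction
open Claimed.Agent.R210.Defs Claimed.Agent.R210.OT.Defs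

namespace Claimed.Agent.R210.OT.Glue

open Claimed.Agent.R210.OT.Weak Claimed.Agent.R210.OT.Basic Claimed.Agent.R210.OT.Exist

open ProbabilityTheory in
theorem ot_compProd_prod_fst {α β γ : Type*} [MeasurableSpace α] [MeasurableSpace β] [MeasurableSpace γ]
    (μ : Measure α) [SFinite μ] (κ : Kernel α β) (η : Kernel α γ) [IsSFiniteKernel κ] [IsMarkovKernel η] :
    (μ ⊗ₘ (κ ×ₖ η)).map (fun p : α × β × γ => (p.1, p.2.1)) = μ ⊗ₘ κ := by
  ext s hs
  have hg : Measurable (fun p : α × β × γ => (p.1, p.2.1)) := by fun_prop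
  rw [Measure.map_apply hg hs, Measure.compProd_apply (hg hs), Measure.compProd_apply hs]
  congr with a
  rw [Kernel.prod_apply]
  have : Prod.mk a ⁻¹' ((fun p : α × β × γ => (p.1, p.2.1)) ⁻¹' s) = (Prod.mk a ⁻¹' s) ×ˢ univ := by
    ext ⟨b, c⟩; simp
  rw [this, Measure.prod_prod, measure_univ, mul_one]

open ProbabilityTheory in
theorem ot_compProd_prod_snd {α β γ : Type*} [MeasurableSpace α] [MeasurableSpace β] [MeasurableSpace γ]
    (μ : Measure α) [SFinite μ] (κ : Kernel α β) (η : Kernel α γ) [IsMarkovKernel κ] [IsSFiniteKernel η] :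
    (μ ⊗ₘ (κ ×ₖ η)).map (fun p : α × β × γ => (p.1, p.2.2)) = μ ⊗ₘ η := by
  ext s hs
  have hg : Measurable (fun p : α × β × γ => (p.1, p.2.2)) := by fun_prop
  rw [Measure.map_apply hg hs, Measure.compProd_apply (hg hs), Measure.compProd_apply hs]
  congr with a
  rw [Kernel.prod_apply]
  have : Prod.mk a ⁻¹' ((fun p : α × β × γ => (p.1, p.2.2)) ⁻¹' s) = univ ×ˢ (Prod.mk a ⁻¹' s) := by
    ext ⟨b, c⟩; simp
  rw [this, Measure.prod_prod, measure_univ, one_mul]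

variable {X : Type*} [MetricSpace X] [MeasurableSpace X] [BorelSpace X] [CompleteSpace X]
  [TopologicalSpace.SeparableSpace X]

open ProbabilityTheory in
theorem ot_glue {μ₁ μ₂ μ₃ : Measure X} [IsProbabilityMeasure μ₂]
    {q₁₂ q₂₃ : Measure (X × X)} (h₁₂ : IsCoupling q₁₂ μ₁ μ₂) (h₂₃ : IsCoupling q₂₃ μ₂ μ₃) :
    ∃ Λ : Measure (X × X × X), IsProbabilityMeasure Λ ∧ Λ.map ot_p12 = q₁₂ ∧ Λ.map ot_p23 = q₂₃ := by
  have hne : Nonempty X := nonempty_of_isProbabilityMeasure μ₂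
  have hsw := ot_coupling_swap h₁₂
  have hp1 : IsProbabilityMeasure (q₁₂.map Prod.swap) := ot_coupling_prob hsw
  have hp3 : IsProbabilityMeasure q₂₃ := ot_coupling_prob h₂₃
  have d1 : μ₂ ⊗ₘ (q₁₂.map Prod.swap).condKernel = q₁₂.map Prod.swap := by
    have := Measure.disintegrate (q₁₂.map Prod.swap) (q₁₂.map Prod.swap).condKernel
    rwa [Measure.fst, hsw.1] at this
  have d3 : μ₂ ⊗ₘ q₂₃.condKernel = q₂₃ := by
    have := Measure.disintegrate q₂₃ q₂₃.condKernel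
    rwa [Measure.fst, h₂₃.1] at this
  have he : Measurable (fun p : X × X × X => (p.2.1, p.1, p.2.2)) := by fun_prop
  have h12 : Measurable (ot_p12 (X := X)) := by unfold ot_p12; fun_prop
  have h23 : Measurable (ot_p23 (X := X)) := by unfold ot_p23; fun_prop
  refine ⟨(μ₂ ⊗ₘ ((q₁₂.map Prod.swap).condKernel ×ₖ q₂₃.condKernel)).map
    (fun p : X × X × X => (p.2.1, p.1, p.2.2)), Measure.isProbabilityMeasure_map he.aemeasurable, ?_, ?_⟩
  · rw [Measure.map_map h12 he]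
    have : (ot_p12 ∘ fun p : X × X × X => (p.2.1, p.1, p.2.2))
        = Prod.swap ∘ (fun p : X × X × X => (p.1, p.2.1)) := rfl
    rw [this, ← Measure.map_map measurable_swap (by fun_prop), ot_compProd_prod_fst, d1,
      Measure.map_map measurable_swap measurable_swap]
    simp
  · rw [Measure.map_map h23 he]
    have : (ot_p23 ∘ fun p : X × X × X => (p.2.1, p.1, p.2.2)) = (fun p : X × X × X => (p.1, p.2.2)) := rfl
    rw [this, ot_compProd_prod_snd, d3]

theorem ot_measurable_edist_sq : Measurable (fun p : X × X => edist p.1 p.2 ^ 2) := by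
  have : SecondCountableTopology X := UniformSpace.secondCountable_of_separable X
  fun_prop

theorem ot_triangle (μ₁ μ₂ μ₃ : Measure X) [IsProbabilityMeasure μ₁]
    [IsProbabilityMeasure μ₂] [IsProbabilityMeasure μ₃] :
    (W2sq μ₁ μ₃) ^ (1 / 2 : ℝ) ≤ (W2sq μ₁ μ₂) ^ (1 / 2 : ℝ) + (W2sq μ₂ μ₃) ^ (1 / 2 : ℝ) := by
  have hsc : SecondCountableTopology X := UniformSpace.secondCountable_of_separable X
  obtain ⟨q₁₂, h₁₂⟩ := ot_exists_optimal μ₁ μ₂
  obtain ⟨q₂₃, h₂₃⟩ := ot_exists_optimal μ₂ μ₃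
  obtain ⟨Λ, hΛ, e12, e23⟩ := ot_glue h₁₂.1 h₂₃.1
  have m12 : Measurable (ot_p12 (X := X)) := by unfold ot_p12; fun_prop
  have m23 : Measurable (ot_p23 (X := X)) := by unfold ot_p23; fun_prop
  have m13 : Measurable (ot_p13 (X := X)) := by unfold ot_p13; fun_prop
  have hc : IsCoupling (Λ.map ot_p13) μ₁ μ₃ := by
    constructor
    · rw [Measure.map_map measurable_fst m13, ← h₁₂.1.1, ← e12, Measure.map_map measurable_fst m12]
      rfl
    · rw [Measure.map_map measurable_snd m13, ← h₂₃.1.2, ← e23, Measure.map_map measurable_snd m23]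
      rfl
  have c13 : QuadraticTransportCost (Λ.map ot_p13) = ∫⁻ p, edist p.1 p.2.2 ^ (2 : ℝ) ∂Λ := by
    rw [QuadraticTransportCost, lintegral_map ot_measurable_edist_sq m13]
    simp only [ot_p13, ENNReal.rpow_two]
  have c12 : W2sq μ₁ μ₂ = ∫⁻ p, edist p.1 p.2.1 ^ (2 : ℝ) ∂Λ := by
    rw [ot_W2sq_eq_cost h₁₂, ← e12, QuadraticTransportCost, lintegral_map ot_measurable_edist_sq m12]
    simp only [ot_p12, ENNReal.rpow_two]
  have c23 : W2sq μ₂ μ₃ = ∫⁻ p, edist p.2.1 p.2.2 ^ (2 : ℝ) ∂Λ := by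
    rw [ot_W2sq_eq_cost h₂₃, ← e23, QuadraticTransportCost, lintegral_map ot_measurable_edist_sq m23]
    simp only [ot_p23, ENNReal.rpow_two]
  have hf : AEMeasurable (fun p : X × X × X => edist p.1 p.2.1) Λ := by fun_prop
  have hg : AEMeasurable (fun p : X × X × X => edist p.2.1 p.2.2) Λ := by fun_prop
  have mink := ENNReal.lintegral_Lp_add_le hf hg (p := 2) (by norm_num)
  rw [c12, c23]
  refine le_trans (ENNReal.rpow_le_rpow ?_ (by norm_num)) mink
  refine (ot_W2sq_le_cost hc).trans ?_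
  rw [c13]
  exact lintegral_mono fun p => ENNReal.rpow_le_rpow (edist_triangle _ _ _) (by norm_num)

theorem ot_triangle_real (μ₁ μ₂ μ₃ : Measure X) [IsProbabilityMeasure μ₁]
    [IsProbabilityMeasure μ₂] [IsProbabilityMeasure μ₃] (h₁₂ : W2sq μ₁ μ₂ ≠ ∞) (h₂₃ : W2sq μ₂ μ₃ ≠ ∞) :
    W2sq μ₁ μ₃ ≠ ∞ ∧ Real.sqrt (W2sqR μ₁ μ₃) ≤ Real.sqrt (W2sqR μ₁ μ₂) + Real.sqrt (W2sqR μ₂ μ₃) := by
  have tri := ot_triangle μ₁ μ₂ μ₃
  have f12 : (W2sq μ₁ μ₂) ^ (1 / 2 : ℝ) ≠ ∞ := ENNReal.rpow_ne_top_of_nonneg (by norm_num) h₁₂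
  have f23 : (W2sq μ₂ μ₃) ^ (1 / 2 : ℝ) ≠ ∞ := ENNReal.rpow_ne_top_of_nonneg (by norm_num) h₂₃
  have f13' : (W2sq μ₁ μ₃) ^ (1 / 2 : ℝ) ≠ ∞ :=
    ne_top_of_le_ne_top (ENNReal.add_ne_top.2 ⟨f12, f23⟩) tri
  have f13 : W2sq μ₁ μ₃ ≠ ∞ := by
    intro h
    rw [h, ENNReal.top_rpow_of_pos (by norm_num)] at f13'
    exact f13' rfl
  refine ⟨f13, ?_⟩
  have := (ENNReal.toReal_le_toReal f13' (ENNReal.add_ne_top.2 ⟨f12, f23⟩)).2 tri
  rw [ENNReal.toReal_add f12 f23, ← ENNReal.toReal_rpow, ← ENNReal.toReal_rpow, ← ENNReal.toReal_rpow] at this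
  simpa only [W2sqR, Real.sqrt_eq_rpow] using this

end Claimed.Agent.R210.OT.Glue
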