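/-
Row 210 (S0432), layer OT (optimal transport), architect helper578.   OT6: lower semicontinuity of `W2sq`.
Master plan: `git show origin/helper928:docs/R210_master.md`; map of the layer: header of `R210/OT/Ifc.lean`.
-/
import Claimed.Agent.R210.OT.Exist

set_option autoImplicit false

open Claims.C0366 Claims.C0366.WeakHessian
open Set Filter MeasureTheory
open scoped ENNReal NNReal Topology BoundedContinuousFunction
open Claimed.Agent.R210.Defs Claimed.Agent.R210.OT.Defs

namespace Claimed.Agent.R210.OT.Lsc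

open Claimed.Agent.R210.OT.Weak Claimed.Agent.R210.OT.Basic Claimed.Agent.R210.OT.Exist

variable {X : Type*} [MetricSpace X] [MeasurableSpace X] [BorelSpace X] [CompleteSpace X]
  [TopologicalSpace.SeparableSpace X]

theorem ot_lsc {μs νs : ℕ → Measure X} {μ ν : Measure X}
    (hμs : ∀ n, IsProbabilityMeasure (μs n)) (hνs : ∀ n, IsProbabilityMeasure (νs n))
    (hμ : IsProbabilityMeasure μ) (hν : IsProbabilityMeasure ν) (h1 : ot_WConv μs μ) (h2 : ot_WConv νs ν) :
    W2sq μ ν ≤ liminf (fun n => W2sq (μs n) (νs n)) atTop := by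
  refine le_of_forall_gt_imp_ge_of_dense fun c hc => ?_
  have hfreq : ∃ᶠ n in atTop, W2sq (μs n) (νs n) < c := frequently_lt_of_liminf_lt (by isBoundedDefault) hc
  obtain ⟨φ, hφ, hlt⟩ := extraction_of_frequently_atTop hfreq
  have hopt : ∀ n, ∃ q : Measure (X × X), IsOptimalCoupling q (μs (φ n)) (νs (φ n)) := fun n =>
    haveI := hμs (φ n)
    haveI := hνs (φ n)
    ot_exists_optimal (μs (φ n)) (νs (φ n))
  choose qs hqs using hopt
  obtain ⟨q, ψ, _, _, hq, hcost⟩ := ot_coupling_subseq (μs := μs ∘ φ) (νs := νs ∘ φ)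
    (fun n => hμs (φ n)) (fun n => hνs (φ n)) hμ hν (ot_wconv_subseq h1 hφ) (ot_wconv_subseq h2 hφ)
    (qs := qs) (fun n => (hqs n).1)
  refine (ot_W2sq_le_cost hq).trans (hcost.trans ?_)
  refine liminf_le_of_frequently_le' (Frequently.of_forall fun n => ?_)
  rw [← ot_W2sq_eq_cost (hqs (ψ n))]
  exact (hlt (ψ n)).le

end Claimed.Agent.R210.OT.Lsc
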