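/-
Row 210 (S0432), layer OT (optimal transport), architect helper578.   OT7: alignment of intermediate points.
Master plan: `git show origin/helper928:docs/R210_master.md`; map of the layer: header of `R210/OT/Ifc.lean`.
-/
import Claimed.Agent.R210.OT.Glue
import Claimed.Agent.R210.OT.Lsc

set_option autoImplicit false

open Claims.C0366 Claims.C0366.WeakHessian
open Set Filter MeasureTheory
open scoped ENNReal NNReal Topology BoundedContinuousFunction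
open Claimed.Agent.R210.Defs Claimed.Agent.R210.OT.Defs

namespace Claimed.Agent.R210.OT.Align

open Claimed.Agent.R210.OT.Weak Claimed.Agent.R210.OT.Basic Claimed.Agent.R210.OT.Exist Claimed.Agent.R210.OT.Glue Claimed.Agent.R210.OT.Lsc

variable {X : Type*} [MetricSpace X] [MeasurableSpace X] [BorelSpace X] [CompleteSpace X]
  [TopologicalSpace.SeparableSpace X]


/-- real-number core of `ot_inter_of_le` -/
theorem ot_inter_real_aux {A B C s : ℝ} (hA : 0 ≤ A) (hB : 0 ≤ B) (hC : 0 ≤ C) (hs0 : 0 ≤ s) (hs1 : s ≤ 1)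
    (h1 : A ≤ s ^ 2 * C) (h2 : B ≤ (1 - s) ^ 2 * C) (ht : Real.sqrt C ≤ Real.sqrt A + Real.sqrt B) :
    A = s ^ 2 * C ∧ B = (1 - s) ^ 2 * C := by
  have hs1' : 0 ≤ 1 - s := by linarith
  have e1 : Real.sqrt A ≤ s * Real.sqrt C := by
    calc Real.sqrt A ≤ Real.sqrt (s ^ 2 * C) := Real.sqrt_le_sqrt h1
      _ = s * Real.sqrt C := by rw [Real.sqrt_mul (sq_nonneg s), Real.sqrt_sq hs0]
  have e2 : Real.sqrt B ≤ (1 - s) * Real.sqrt C := by
    calc Real.sqrt B ≤ Real.sqrt ((1 - s) ^ 2 * C) := Real.sqrt_le_sqrt h2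
      _ = (1 - s) * Real.sqrt C := by rw [Real.sqrt_mul (sq_nonneg _), Real.sqrt_sq hs1']
  have f1 : Real.sqrt A = s * Real.sqrt C := by nlinarith
  have f2 : Real.sqrt B = (1 - s) * Real.sqrt C := by nlinarith
  constructor
  · calc A = Real.sqrt A ^ 2 := (Real.sq_sqrt hA).symm
      _ = s ^ 2 * Real.sqrt C ^ 2 := by rw [f1]; ring
      _ = s ^ 2 * C := by rw [Real.sq_sqrt hC]
  · calc B = Real.sqrt B ^ 2 := (Real.sq_sqrt hB).symm
      _ = (1 - s) ^ 2 * Real.sqrt C ^ 2 := by rw [f2]; ring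
      _ = (1 - s) ^ 2 * C := by rw [Real.sq_sqrt hC]

/-- criterion: the two inequalities are enough (stated early; `ot_inter_of_le` is a copy) -/
theorem ot_inter_of_le_aux {μ₀ μ₁ ν : Measure X} [IsProbabilityMeasure μ₀] [IsProbabilityMeasure μ₁]
    [IsProbabilityMeasure ν] {s : ℝ} (hs0 : 0 ≤ s) (hs1 : s ≤ 1) (hW : W2sq μ₀ μ₁ ≠ ∞)
    (h1 : W2sq μ₀ ν ≤ ENNReal.ofReal (s ^ 2) * W2sq μ₀ μ₁)
    (h2 : W2sq ν μ₁ ≤ ENNReal.ofReal ((1 - s) ^ 2) * W2sq μ₀ μ₁) : IsInter μ₀ μ₁ ν s := by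
  have hR1 : ENNReal.ofReal (s ^ 2) * W2sq μ₀ μ₁ ≠ ∞ := ENNReal.mul_ne_top ENNReal.ofReal_ne_top hW
  have hR2 : ENNReal.ofReal ((1 - s) ^ 2) * W2sq μ₀ μ₁ ≠ ∞ := ENNReal.mul_ne_top ENNReal.ofReal_ne_top hW
  have hA : W2sq μ₀ ν ≠ ∞ := ne_top_of_le_ne_top hR1 h1
  have hB : W2sq ν μ₁ ≠ ∞ := ne_top_of_le_ne_top hR2 h2
  have ht := (ot_triangle_real μ₀ ν μ₁ hA hB).2
  have g1 : W2sqR μ₀ ν ≤ s ^ 2 * W2sqR μ₀ μ₁ := by
    have := ENNReal.toReal_mono hR1 h1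
    rwa [ENNReal.toReal_mul, ENNReal.toReal_ofReal (sq_nonneg s)] at this
  have g2 : W2sqR ν μ₁ ≤ (1 - s) ^ 2 * W2sqR μ₀ μ₁ := by
    have := ENNReal.toReal_mono hR2 h2
    rwa [ENNReal.toReal_mul, ENNReal.toReal_ofReal (sq_nonneg _)] at this
  obtain ⟨k1, k2⟩ := ot_inter_real_aux (A := W2sqR μ₀ ν) (B := W2sqR ν μ₁) (C := W2sqR μ₀ μ₁)
    ENNReal.toReal_nonneg ENNReal.toReal_nonneg ENNReal.toReal_nonneg hs0 hs1 g1 g2 ht
  constructor
  · rw [← ENNReal.toReal_eq_toReal_iff' hA hR1, ENNReal.toReal_mul, ENNReal.toReal_ofReal (sq_nonneg s)]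
    exact k1
  · rw [← ENNReal.toReal_eq_toReal_iff' hB hR2, ENNReal.toReal_mul, ENNReal.toReal_ofReal (sq_nonneg _)]
    exact k2

theorem ot_align_aux {Ω : Type*} [MeasurableSpace Ω] (Λ : Measure Ω) {f g h : Ω → ℝ}
    (hfm : Measurable f) (hgm : Measurable g) (hhm : Measurable h)
    (hf0 : ∀ p, 0 ≤ f p) (hg0 : ∀ p, 0 ≤ g p) (hh0 : ∀ p, 0 ≤ h p) (hle : ∀ p, h p ≤ f p + g p)
    (hf2 : Integrable (fun p => f p ^ 2) Λ) (hg2 : Integrable (fun p => g p ^ 2) Λ)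
    {s W : ℝ} (hs0 : 0 ≤ s) (hs1 : s ≤ 1)
    (hA : ∫ p, f p ^ 2 ∂Λ = s ^ 2 * W) (hB : ∫ p, g p ^ 2 ∂Λ = (1 - s) ^ 2 * W)
    (hH : Integrable (fun p => h p ^ 2) Λ → W ≤ ∫ p, h p ^ 2 ∂Λ) :
    Integrable (fun p => h p ^ 2) Λ ∧ ∫ p, h p ^ 2 ∂Λ ≤ W ∧
      ∀ᵐ p ∂Λ, f p = s * h p ∧ g p = (1 - s) * h p := by
  have hfg : Integrable (fun p => f p * g p) Λ := by
    refine Integrable.mono' (hf2.add hg2) (hfm.mul hgm).aestronglyMeasurable (ae_of_all _ fun p => ?_)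
    rw [Real.norm_eq_abs, abs_of_nonneg (mul_nonneg (hf0 p) (hg0 p))]
    simp only [Pi.add_apply]
    nlinarith [sq_nonneg (f p - g p), mul_nonneg (hf0 p) (hg0 p)]
  have hh2 : Integrable (fun p => h p ^ 2) Λ := by
    refine Integrable.mono' ((hf2.add hg2).const_mul 2) (hhm.pow_const 2).aestronglyMeasurable
      (ae_of_all _ fun p => ?_)
    rw [Real.norm_eq_abs, abs_of_nonneg (sq_nonneg _)]
    simp only [Pi.add_apply]
    have h1 : h p ^ 2 ≤ (f p + g p) ^ 2 := pow_le_pow_left₀ (hh0 p) (hle p) 2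
    nlinarith [sq_nonneg (f p - g p)]
  have hH' := hH hh2
  set A := ∫ p, f p ^ 2 ∂Λ with hAdef
  set B := ∫ p, g p ^ 2 ∂Λ with hBdef
  set Cc := ∫ p, f p * g p ∂Λ with hCdef
  set H := ∫ p, h p ^ 2 ∂Λ with hHdef
  -- the square
  have hsqint : Integrable (fun p => ((1 - s) * f p - s * g p) ^ 2) Λ := by
    have : (fun p => ((1 - s) * f p - s * g p) ^ 2)
        = fun p => (1 - s) ^ 2 * f p ^ 2 - 2 * s * (1 - s) * (f p * g p) + s ^ 2 * g p ^ 2 := by
      funext p; ring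
    rw [this]
    exact ((hf2.const_mul _).sub (hfg.const_mul _)).add (hg2.const_mul _)
  have hsq : ∫ p, ((1 - s) * f p - s * g p) ^ 2 ∂Λ
      = (1 - s) ^ 2 * A - 2 * s * (1 - s) * Cc + s ^ 2 * B := by
    have : (fun p => ((1 - s) * f p - s * g p) ^ 2)
        = fun p => (1 - s) ^ 2 * f p ^ 2 - 2 * s * (1 - s) * (f p * g p) + s ^ 2 * g p ^ 2 := by
      funext p; ring
    have i1 : Integrable (fun p => (1 - s) ^ 2 * f p ^ 2) Λ := hf2.const_mul _
    have i2 : Integrable (fun p => 2 * s * (1 - s) * (f p * g p)) Λ := hfg.const_mul _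
    have i3 : Integrable (fun p => s ^ 2 * g p ^ 2) Λ := hg2.const_mul _
    have i12 : Integrable (fun p => (1 - s) ^ 2 * f p ^ 2 - 2 * s * (1 - s) * (f p * g p)) Λ :=
      i1.sub i2
    rw [this, integral_add i12 i3, integral_sub i1 i2, integral_const_mul, integral_const_mul,
      integral_const_mul]
  have hsq0 : 0 ≤ ∫ p, ((1 - s) * f p - s * g p) ^ 2 ∂Λ := integral_nonneg fun p => sq_nonneg _
  have hsumint : Integrable (fun p => (f p + g p) ^ 2 - h p ^ 2) Λ := by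
    have : (fun p => (f p + g p) ^ 2 - h p ^ 2)
        = fun p => f p ^ 2 + 2 * (f p * g p) + g p ^ 2 - h p ^ 2 := by
      funext p; ring
    rw [this]
    exact ((hf2.add (hfg.const_mul _)).add hg2).sub hh2
  have hsum : ∫ p, ((f p + g p) ^ 2 - h p ^ 2) ∂Λ = A + 2 * Cc + B - H := by
    have : (fun p => (f p + g p) ^ 2 - h p ^ 2)
        = fun p => f p ^ 2 + 2 * (f p * g p) + g p ^ 2 - h p ^ 2 := by
      funext p; ring
    have i2 : Integrable (fun p => 2 * (f p * g p)) Λ := hfg.const_mul _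
    have i12 : Integrable (fun p => f p ^ 2 + 2 * (f p * g p)) Λ := hf2.add i2
    have i123 : Integrable (fun p => f p ^ 2 + 2 * (f p * g p) + g p ^ 2) Λ := i12.add hg2
    rw [this, integral_sub i123 hh2, integral_add i12 hg2, integral_add hf2 i2,
      integral_const_mul]
  have hsum0 : 0 ≤ ∫ p, ((f p + g p) ^ 2 - h p ^ 2) ∂Λ :=
    integral_nonneg fun p => sub_nonneg.2 (pow_le_pow_left₀ (hh0 p) (hle p) 2)
  have hC : Cc ≤ s * (1 - s) * W := by
    rcases hs0.eq_or_lt with h0 | h0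
    · -- s = 0
      subst h0
      have hA0 : A = 0 := by rw [hA]; ring
      have hz := (integral_eq_zero_iff_of_nonneg (fun p => sq_nonneg (f p)) hf2).1 hA0
      have : Cc = 0 := by
        rw [hCdef]
        refine integral_eq_zero_of_ae ?_
        filter_upwards [hz] with p hp
        have : f p = 0 := by simpa using hp
        simp [this]
      rw [this]; simp
    rcases hs1.eq_or_lt with h1 | h1
    · subst h1
      have hB0 : B = 0 := by rw [hB]; ring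
      have hz := (integral_eq_zero_iff_of_nonneg (fun p => sq_nonneg (g p)) hg2).1 hB0
      have : Cc = 0 := by
        rw [hCdef]
        refine integral_eq_zero_of_ae ?_
        filter_upwards [hz] with p hp
        have : g p = 0 := by simpa using hp
        simp [this]
      rw [this]; simp
    · have hpos : 0 < 2 * s * (1 - s) := by
        have : 0 < 1 - s := by linarith
        positivity
      rw [hsq, hA, hB] at hsq0
      have : 2 * s * (1 - s) * Cc ≤ 2 * s * (1 - s) * (s * (1 - s) * W) := by nlinarith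
      exact le_of_mul_le_mul_left this hpos
  rw [hsum] at hsum0
  have hHW : H ≤ W := by
    have : A + 2 * Cc + B ≤ W := by
      rw [hA, hB]; nlinarith
    linarith
  have hHeq : H = W := le_antisymm hHW hH'
  have hCeq : Cc = s * (1 - s) * W := by
    refine le_antisymm hC ?_
    rw [hA, hB, hHeq] at hsum0
    nlinarith
  have hz1 : ∫ p, ((1 - s) * f p - s * g p) ^ 2 ∂Λ = 0 := by
    rw [hsq, hA, hB, hCeq]; ring
  have hz2 : ∫ p, ((f p + g p) ^ 2 - h p ^ 2) ∂Λ = 0 := by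
    rw [hsum, hA, hB, hCeq, hHeq]; ring
  have e1 := (integral_eq_zero_iff_of_nonneg (fun p => sq_nonneg _) hsqint).1 hz1
  have e2 := (integral_eq_zero_iff_of_nonneg
    (fun p => sub_nonneg.2 (pow_le_pow_left₀ (hh0 p) (hle p) 2)) hsumint).1 hz2
  refine ⟨hh2, hHW, ?_⟩
  filter_upwards [e1, e2] with p h1 h2
  have h1' : (1 - s) * f p - s * g p = 0 := by simpa using h1
  have h2' : (f p + g p) ^ 2 = h p ^ 2 := by
    have : (f p + g p) ^ 2 - h p ^ 2 = 0 := by simpa using h2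
    linarith
  have h3 : f p + g p = h p :=
    (pow_left_inj₀ (add_nonneg (hf0 p) (hg0 p)) (hh0 p) (by norm_num)).1 h2'
  rw [← h3]
  constructor <;> linarith

theorem ot_integral_of_lintegral {Ω : Type*} [MeasurableSpace Ω] {Λ : Measure Ω} {F : Ω → ℝ}
    (hFm : Measurable F) (hF0 : ∀ p, 0 ≤ F p) {c : ℝ} (hc : 0 ≤ c)
    (h : ∫⁻ p, ENNReal.ofReal (F p) ∂Λ = ENNReal.ofReal c) :
    Integrable F Λ ∧ ∫ p, F p ∂Λ = c := by
  have hi : Integrable F Λ := by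
    refine ⟨hFm.aestronglyMeasurable, ?_⟩
    rw [hasFiniteIntegral_iff_ofReal (ae_of_all _ hF0), h]
    exact ENNReal.ofReal_lt_top
  refine ⟨hi, ?_⟩
  rw [integral_eq_lintegral_of_nonneg_ae (ae_of_all _ hF0) hFm.aestronglyMeasurable, h,
    ENNReal.toReal_ofReal hc]

theorem ot_align {μ₀ μ₁ ν : Measure X} [IsProbabilityMeasure μ₀] [IsProbabilityMeasure μ₁]
    [IsProbabilityMeasure ν] {s : ℝ} (hs0 : 0 ≤ s) (hs1 : s ≤ 1) (hW : W2sq μ₀ μ₁ ≠ ∞) (hν : IsInter μ₀ μ₁ ν s)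
    {q₀ q₁ : Measure (X × X)} (hq₀ : IsOptimalCoupling q₀ μ₀ ν) (hq₁ : IsOptimalCoupling q₁ ν μ₁) :
    ∃ Λ : Measure (X × X × X), IsProbabilityMeasure Λ ∧ Λ.map ot_p12 = q₀ ∧ Λ.map ot_p23 = q₁ ∧
      IsOptimalCoupling (Λ.map ot_p13) μ₀ μ₁ ∧
      ∀ᵐ p ∂Λ, dist p.1 p.2.1 = s * dist p.1 p.2.2 ∧ dist p.2.1 p.2.2 = (1 - s) * dist p.1 p.2.2 := by
  have hsc : SecondCountableTopology X := UniformSpace.secondCountable_of_separable X
  obtain ⟨Λ, hΛ, e12, e23⟩ := ot_glue hq₀.1 hq₁.1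
  have m12 : Measurable (ot_p12 (X := X)) := by unfold ot_p12; fun_prop
  have m23 : Measurable (ot_p23 (X := X)) := by unfold ot_p23; fun_prop
  have m13 : Measurable (ot_p13 (X := X)) := by unfold ot_p13; fun_prop
  have hc : IsCoupling (Λ.map ot_p13) μ₀ μ₁ := by
    constructor
    · rw [Measure.map_map measurable_fst m13, ← hq₀.1.1, ← e12, Measure.map_map measurable_fst m12]
      rfl
    · rw [Measure.map_map measurable_snd m13, ← hq₁.1.2, ← e23, Measure.map_map measurable_snd m23]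
      rfl
  set W := (W2sq μ₀ μ₁).toReal with hWdef
  have hW0 : 0 ≤ W := ENNReal.toReal_nonneg
  have hWof : W2sq μ₀ μ₁ = ENNReal.ofReal W := (ENNReal.ofReal_toReal hW).symm
  have hed : ∀ x y : X, edist x y ^ 2 = ENNReal.ofReal (dist x y ^ 2) := by
    intro x y
    rw [edist_dist, ENNReal.ofReal_pow dist_nonneg]
  have c13 : QuadraticTransportCost (Λ.map ot_p13)
      = ∫⁻ p, ENNReal.ofReal (dist p.1 p.2.2 ^ 2) ∂Λ := by
    rw [QuadraticTransportCost, lintegral_map ot_measurable_edist_sq m13]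
    simp only [ot_p13, hed]
  have c12 : ∫⁻ p, ENNReal.ofReal (dist p.1 p.2.1 ^ 2) ∂Λ = ENNReal.ofReal (s ^ 2 * W) := by
    rw [ENNReal.ofReal_mul (sq_nonneg s), ← hWof, ← hν.1, ot_W2sq_eq_cost hq₀, ← e12,
      QuadraticTransportCost, lintegral_map ot_measurable_edist_sq m12]
    simp only [ot_p12, hed]
  have c23 : ∫⁻ p, ENNReal.ofReal (dist p.2.1 p.2.2 ^ 2) ∂Λ = ENNReal.ofReal ((1 - s) ^ 2 * W) := by
    rw [ENNReal.ofReal_mul (sq_nonneg (1 - s)), ← hWof, ← hν.2, ot_W2sq_eq_cost hq₁, ← e23,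
      QuadraticTransportCost, lintegral_map ot_measurable_edist_sq m23]
    simp only [ot_p23, hed]
  have mf : Measurable (fun p : X × X × X => dist p.1 p.2.1) := by fun_prop
  have mg : Measurable (fun p : X × X × X => dist p.2.1 p.2.2) := by fun_prop
  have mh : Measurable (fun p : X × X × X => dist p.1 p.2.2) := by fun_prop
  obtain ⟨if2, hA⟩ := ot_integral_of_lintegral (Λ := Λ) (F := fun p : X × X × X => dist p.1 p.2.1 ^ 2)
    (mf.pow_const 2) (fun p => sq_nonneg _) (mul_nonneg (sq_nonneg s) hW0) c12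
  obtain ⟨ig2, hB⟩ := ot_integral_of_lintegral (Λ := Λ) (F := fun p : X × X × X => dist p.2.1 p.2.2 ^ 2)
    (mg.pow_const 2) (fun p => sq_nonneg _) (mul_nonneg (sq_nonneg (1 - s)) hW0) c23
  have hcost : Integrable (fun p : X × X × X => dist p.1 p.2.2 ^ 2) Λ →
      QuadraticTransportCost (Λ.map ot_p13) = ENNReal.ofReal (∫ p, dist p.1 p.2.2 ^ 2 ∂Λ) := by
    intro hi
    rw [c13, ofReal_integral_eq_lintegral_ofReal hi (ae_of_all _ fun p => sq_nonneg _)]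
  obtain ⟨ih2, hHW, hae⟩ := ot_align_aux Λ mf mg mh (fun p => dist_nonneg) (fun p => dist_nonneg)
    (fun p => dist_nonneg) (fun p => dist_triangle _ _ _) if2 ig2 hs0 hs1 hA hB (by
      intro hi
      have h1 := ot_W2sq_le_cost hc
      rw [hcost hi, hWof] at h1
      exact (ENNReal.ofReal_le_ofReal_iff (integral_nonneg fun p => sq_nonneg _)).1 h1)
  refine ⟨Λ, hΛ, e12, e23, ot_optimal_of_cost_le hc ?_, hae⟩
  rw [hcost ih2, hWof]
  exact ENNReal.ofReal_le_ofReal hHW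

theorem ot_displacement {μ₀ μ₁ ν : Measure X} [IsProbabilityMeasure μ₀] [IsProbabilityMeasure μ₁]
    [IsProbabilityMeasure ν] {s : ℝ} (hs0 : 0 ≤ s) (hs1 : s ≤ 1) (hν : IsInter μ₀ μ₁ ν s)
    {S0 S1 : Set X} {D : ℝ} (hS0 : MeasurableSet S0) (hS1 : MeasurableSet S1) (h0 : μ₀ S0ᶜ = 0) (h1 : μ₁ S1ᶜ = 0)
    (hD : ∀ x ∈ S0, ∀ y ∈ S1, dist x y ≤ D)
    {q : Measure (X × X)} (hq : IsOptimalCoupling q μ₀ ν) : ∀ᵐ p ∂q, dist p.1 p.2 ≤ s * D := by
  have : SecondCountableTopology X := UniformSpace.secondCountable_of_separable X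
  -- finiteness of the distance
  have hW : W2sq μ₀ μ₁ ≠ ∞ := by
    have hc := ot_coupling_prod μ₀ μ₁
    have hconc : (μ₀.prod μ₁) (S0 ×ˢ S1)ᶜ = 0 := ot_coupling_conc hc hS0 hS1 h0 h1
    have hle : W2sq μ₀ μ₁ ≤ QuadraticTransportCost (μ₀.prod μ₁) := ot_W2sq_le_cost hc
    have hb : QuadraticTransportCost (μ₀.prod μ₁) ≤ ENNReal.ofReal (D ^ 2) := by
      unfold QuadraticTransportCost
      have hae : ∀ᵐ p ∂(μ₀.prod μ₁), (edist p.1 p.2) ^ 2 ≤ ENNReal.ofReal (D ^ 2) := by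
        have : ∀ᵐ p ∂(μ₀.prod μ₁), p ∈ S0 ×ˢ S1 := by
          rw [ae_iff]; exact hconc
        filter_upwards [this] with p hp
        have hd := hD p.1 hp.1 p.2 hp.2
        rw [edist_dist, ← ENNReal.ofReal_pow dist_nonneg]
        exact ENNReal.ofReal_le_ofReal (pow_le_pow_left₀ dist_nonneg hd 2)
      calc ∫⁻ p, (edist p.1 p.2) ^ 2 ∂(μ₀.prod μ₁) ≤ ∫⁻ _, ENNReal.ofReal (D ^ 2) ∂(μ₀.prod μ₁) :=
            lintegral_mono_ae hae
        _ = ENNReal.ofReal (D ^ 2) := by simp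
    exact ne_top_of_le_ne_top ENNReal.ofReal_ne_top (hle.trans hb)
  obtain ⟨q₁, hq₁⟩ := ot_exists_optimal ν μ₁
  obtain ⟨Λ, hΛ, h12, -, h13, hae⟩ := ot_align hs0 hs1 hW hν hq hq₁
  have m12 : Measurable (ot_p12 : X × X × X → X × X) := by unfold ot_p12; fun_prop
  have m13 : Measurable (ot_p13 : X × X × X → X × X) := by unfold ot_p13; fun_prop
  have hconc : (Λ.map ot_p13) (S0 ×ˢ S1)ᶜ = 0 := ot_coupling_conc h13.1 hS0 hS1 h0 h1
  have hmem : ∀ᵐ p ∂Λ, ot_p13 p ∈ S0 ×ˢ S1 := by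
    have : ∀ᵐ z ∂(Λ.map ot_p13), z ∈ S0 ×ˢ S1 := by rw [ae_iff]; exact hconc
    exact ae_of_ae_map m13.aemeasurable this
  rw [← h12]
  have hset : MeasurableSet {p : X × X | dist p.1 p.2 ≤ s * D} :=
    measurableSet_le (by fun_prop) measurable_const
  rw [ae_map_iff m12.aemeasurable hset]
  filter_upwards [hae, hmem] with p hp hm
  have hd := hD _ hm.1 _ hm.2
  simp only [ot_p12, ot_p13] at hd ⊢
  rw [hp.1]
  exact mul_le_mul_of_nonneg_left hd hs0

theorem ot_inter_convex {μ₀ μ₁ ν ν' : Measure X} [IsProbabilityMeasure μ₀] [IsProbabilityMeasure μ₁]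
    [IsProbabilityMeasure ν] [IsProbabilityMeasure ν'] {s : ℝ} (hs0 : 0 ≤ s) (hs1 : s ≤ 1) (hW : W2sq μ₀ μ₁ ≠ ∞)
    (hν : IsInter μ₀ μ₁ ν s) (hν' : IsInter μ₀ μ₁ ν' s) {a b : ℝ≥0∞} (hab : a + b = 1) :
    IsInter μ₀ μ₁ (a • ν + b • ν') s := by
  have ha : a ≠ ∞ := by rintro rfl; simp at hab
  have hb : b ≠ ∞ := by rintro rfl; simp at hab
  have : IsProbabilityMeasure (a • ν + b • ν') := ⟨by simp [hab]⟩
  have e0 : a • μ₀ + b • μ₀ = μ₀ := by rw [← add_smul, hab, one_smul]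
  have e1 : a • μ₁ + b • μ₁ = μ₁ := by rw [← add_smul, hab, one_smul]
  apply ot_inter_of_le_aux hs0 hs1 hW
  · have := ot_convex μ₀ μ₀ ν ν' ha hb
    rw [e0, hν.1, hν'.1, ← add_mul, hab, one_mul] at this
    exact this
  · have := ot_convex ν ν' μ₁ μ₁ ha hb
    rw [e1, hν.2, hν'.2, ← add_mul, hab, one_mul] at this
    exact this

theorem ot_inter_closed {μ₀ μ₁ ν : Measure X} [IsProbabilityMeasure μ₀] [IsProbabilityMeasure μ₁]
    [IsProbabilityMeasure ν] {s : ℝ} (hs0 : 0 ≤ s) (hs1 : s ≤ 1) (hW : W2sq μ₀ μ₁ ≠ ∞) {νs : ℕ → Measure X}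
    (hνs : ∀ n, IsProbabilityMeasure (νs n)) (hi : ∀ n, IsInter μ₀ μ₁ (νs n) s) (hc : ot_WConv νs ν) :
    IsInter μ₀ μ₁ ν s := by
  have c0 : ot_WConv (fun _ : ℕ => μ₀) μ₀ := fun f => tendsto_const_nhds
  have c1 : ot_WConv (fun _ : ℕ => μ₁) μ₁ := fun f => tendsto_const_nhds
  apply ot_inter_of_le_aux hs0 hs1 hW
  · have := ot_lsc (μs := fun _ : ℕ => μ₀) (νs := νs) (fun _ => inferInstance) hνs inferInstance inferInstance c0 hc
    simp only [(hi _).1, liminf_const] at this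
    exact this
  · have := ot_lsc (μs := νs) (νs := fun _ : ℕ => μ₁) hνs (fun _ => inferInstance) inferInstance inferInstance hc c1
    simp only [(hi _).2, liminf_const] at this
    exact this

/-- criterion: the two inequalities are enough -/
theorem ot_inter_of_le {μ₀ μ₁ ν : Measure X} [IsProbabilityMeasure μ₀] [IsProbabilityMeasure μ₁]
    [IsProbabilityMeasure ν] {s : ℝ} (hs0 : 0 ≤ s) (hs1 : s ≤ 1) (hW : W2sq μ₀ μ₁ ≠ ∞)
    (h1 : W2sq μ₀ ν ≤ ENNReal.ofReal (s ^ 2) * W2sq μ₀ μ₁)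
    (h2 : W2sq ν μ₁ ≤ ENNReal.ofReal ((1 - s) ^ 2) * W2sq μ₀ μ₁) : IsInter μ₀ μ₁ ν s :=
  ot_inter_of_le_aux hs0 hs1 hW h1 h2

end Claimed.Agent.R210.OT.Align
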