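/-
Row 210 (S0432), layer OT (optimal transport), architect helper578.   OT4b: cyclical monotonicity of the support of an optimal coupling.
Master plan: `git show origin/helper928:docs/R210_master.md`; map of the layer: header of `R210/OT/Ifc.lean`.
-/
import Claimed.Agent.R210.OT.Basic

set_option autoImplicit false

open Claims.C0366 Claims.C0366.WeakHessian
open Set Filter MeasureTheory
open scoped ENNReal NNReal Topology BoundedContinuousFunction
open Claimed.Agent.R210.Defs Claimed.Agent.R210.OT.Defs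

namespace Claimed.Agent.R210.OT.CM

open Claimed.Agent.R210.OT.Basic

variable {X : Type*} [MetricSpace X] [MeasurableSpace X] [BorelSpace X] [CompleteSpace X]
  [TopologicalSpace.SeparableSpace X]

/-- the normalised restriction of `q` to the product of the balls of radius `r` around the coordinates of `p` -/
noncomputable def ot_piece (q : Measure (X × X)) (r : ℝ) (p : X × X) : Measure (X × X) :=
  (q (Metric.ball p.1 r ×ˢ Metric.ball p.2 r))⁻¹ • q.restrict (Metric.ball p.1 r ×ˢ Metric.ball p.2 r)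

theorem ot_piece_mass {q : Measure (X × X)} [IsFiniteMeasure q] {r : ℝ} (hr : 0 < r) {p : X × X} (hp : p ∈ q.support) :
    q (Metric.ball p.1 r ×ˢ Metric.ball p.2 r) ≠ 0 ∧ q (Metric.ball p.1 r ×ˢ Metric.ball p.2 r) ≠ ∞ := by
  refine ⟨?_, measure_ne_top q _⟩
  have h := (Measure.mem_support_iff_forall p).1 hp (Metric.ball p.1 r ×ˢ Metric.ball p.2 r)
    (prod_mem_nhds (Metric.ball_mem_nhds _ hr) (Metric.ball_mem_nhds _ hr))
  exact h.ne'

theorem ot_piece_prob {q : Measure (X × X)} [IsFiniteMeasure q] {r : ℝ} (hr : 0 < r) {p : X × X} (hp : p ∈ q.support) :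
    IsProbabilityMeasure (ot_piece q r p) := by
  obtain ⟨h0, h1⟩ := ot_piece_mass (q := q) hr hp
  refine ⟨?_⟩
  unfold ot_piece
  rw [Measure.smul_apply, Measure.restrict_apply MeasurableSet.univ, univ_inter, smul_eq_mul]
  exact ENNReal.inv_mul_cancel h0 h1

theorem ot_piece_le {q : Measure (X × X)} [IsFiniteMeasure q] {r : ℝ} (hr : 0 < r) {p : X × X} (hp : p ∈ q.support)
    {t : ℝ≥0∞} (ht : t ≤ q (Metric.ball p.1 r ×ˢ Metric.ball p.2 r)) : t • ot_piece q r p ≤ q := by
  obtain ⟨h0, h1⟩ := ot_piece_mass (q := q) hr hp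
  unfold ot_piece
  rw [smul_smul]
  have h2 : t * (q (Metric.ball p.1 r ×ˢ Metric.ball p.2 r))⁻¹ ≤ 1 := by
    calc t * (q (Metric.ball p.1 r ×ˢ Metric.ball p.2 r))⁻¹
        ≤ q (Metric.ball p.1 r ×ˢ Metric.ball p.2 r) * (q (Metric.ball p.1 r ×ˢ Metric.ball p.2 r))⁻¹ := by
          gcongr
      _ = 1 := ENNReal.mul_inv_cancel h0 h1
  intro s
  rw [Measure.smul_apply, smul_eq_mul]
  calc t * (q (Metric.ball p.1 r ×ˢ Metric.ball p.2 r))⁻¹ * (q.restrict (Metric.ball p.1 r ×ˢ Metric.ball p.2 r)) s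
      ≤ 1 * (q.restrict (Metric.ball p.1 r ×ˢ Metric.ball p.2 r)) s := by gcongr
    _ = (q.restrict (Metric.ball p.1 r ×ˢ Metric.ball p.2 r)) s := one_mul _
    _ ≤ q s := Measure.restrict_le_self s

theorem ot_piece_fst (q : Measure (X × X)) (r : ℝ) (p : X × X) :
    ((ot_piece q r p).map Prod.fst) (Metric.ball p.1 r)ᶜ = 0 := by
  rw [Measure.map_apply measurable_fst Metric.isOpen_ball.measurableSet.compl]
  unfold ot_piece
  rw [Measure.smul_apply,
    Measure.restrict_apply (measurable_fst Metric.isOpen_ball.measurableSet.compl)]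
  have : Prod.fst ⁻¹' (Metric.ball p.1 r)ᶜ ∩ Metric.ball p.1 r ×ˢ Metric.ball p.2 r = (∅ : Set (X × X)) := by
    ext z
    simp only [mem_inter_iff, mem_preimage, mem_compl_iff, mem_prod, mem_empty_iff_false, iff_false]
    tauto
  rw [this]
  simp

theorem ot_piece_snd (q : Measure (X × X)) (r : ℝ) (p : X × X) :
    ((ot_piece q r p).map Prod.snd) (Metric.ball p.2 r)ᶜ = 0 := by
  rw [Measure.map_apply measurable_snd Metric.isOpen_ball.measurableSet.compl]
  unfold ot_piece
  rw [Measure.smul_apply,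
    Measure.restrict_apply (measurable_snd Metric.isOpen_ball.measurableSet.compl)]
  have : Prod.snd ⁻¹' (Metric.ball p.2 r)ᶜ ∩ Metric.ball p.1 r ×ˢ Metric.ball p.2 r = (∅ : Set (X × X)) := by
    ext z
    simp only [mem_inter_iff, mem_preimage, mem_compl_iff, mem_prod, mem_empty_iff_false, iff_false]
    tauto
  rw [this]
  simp

/-- cost of a probability measure concentrated on a product of two small balls: lower bound -/
theorem ot_cost_ge_of_balls {ρ : Measure (X × X)} [IsProbabilityMeasure ρ] {x y : X} {r : ℝ}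
    (h : ρ (Metric.ball x r ×ˢ Metric.ball y r)ᶜ = 0) :
    ENNReal.ofReal (dist x y - 2 * r) ^ 2 ≤ QuadraticTransportCost ρ := by
  have hae : ∀ᵐ z ∂ρ, z ∈ Metric.ball x r ×ˢ Metric.ball y r := by
    rw [ae_iff]; exact h
  unfold QuadraticTransportCost
  calc ENNReal.ofReal (dist x y - 2 * r) ^ 2
      = ∫⁻ _ : X × X, ENNReal.ofReal (dist x y - 2 * r) ^ 2 ∂ρ := by
        rw [lintegral_const, measure_univ, mul_one]
    _ ≤ ∫⁻ z, (edist z.1 z.2) ^ 2 ∂ρ := by
        refine lintegral_mono_ae ?_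
        filter_upwards [hae] with z hz
        have h1 : dist z.1 x < r := hz.1
        have h2 : dist z.2 y < r := hz.2
        have h3 : dist x y ≤ dist x z.1 + dist z.1 z.2 + dist z.2 y := dist_triangle4 _ _ _ _
        rw [dist_comm x z.1] at h3
        rw [edist_dist]
        gcongr
        linarith

/-- cost of a probability measure concentrated on a product of two small balls: upper bound -/
theorem ot_cost_le_of_balls {ρ : Measure (X × X)} [IsProbabilityMeasure ρ] {x y : X} {r : ℝ}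
    (h : ρ (Metric.ball x r ×ˢ Metric.ball y r)ᶜ = 0) :
    QuadraticTransportCost ρ ≤ ENNReal.ofReal (dist x y + 2 * r) ^ 2 := by
  have hae : ∀ᵐ z ∂ρ, z ∈ Metric.ball x r ×ˢ Metric.ball y r := by
    rw [ae_iff]; exact h
  unfold QuadraticTransportCost
  calc ∫⁻ z, (edist z.1 z.2) ^ 2 ∂ρ
      ≤ ∫⁻ _ : X × X, ENNReal.ofReal (dist x y + 2 * r) ^ 2 ∂ρ := by
        refine lintegral_mono_ae ?_
        filter_upwards [hae] with z hz
        have h1 : dist z.1 x < r := hz.1
        have h2 : dist z.2 y < r := hz.2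
        have h3 : dist z.1 z.2 ≤ dist z.1 x + dist x y + dist y z.2 := dist_triangle4 _ _ _ _
        rw [dist_comm y z.2] at h3
        rw [edist_dist]
        gcongr
        linarith
    _ = ENNReal.ofReal (dist x y + 2 * r) ^ 2 := by
        rw [lintegral_const, measure_univ, mul_one]

theorem ot_map_finset_sum {Y Z : Type*} [MeasurableSpace Y] [MeasurableSpace Z] {f : Y → Z} (hf : Measurable f)
    (s : Finset ℕ) (m : ℕ → Measure Y) : (∑ i ∈ s, m i).map f = ∑ i ∈ s, (m i).map f := by
  rw [← Measure.mapₗ_apply_of_measurable hf, map_sum]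
  refine Finset.sum_congr rfl fun i _ => ?_
  rw [Measure.mapₗ_apply_of_measurable hf]

omit [BorelSpace X] [CompleteSpace X] [TopologicalSpace.SeparableSpace X] in
theorem ot_cost_finset_sum (s : Finset ℕ) (t : ℝ≥0∞) (m : ℕ → Measure (X × X)) :
    QuadraticTransportCost (∑ i ∈ s, t • m i) = t * ∑ i ∈ s, QuadraticTransportCost (m i) := by
  unfold QuadraticTransportCost
  rw [lintegral_finsetSum_measure, Finset.mul_sum]
  refine Finset.sum_congr rfl fun i _ => ?_
  rw [lintegral_smul_measure, smul_eq_mul]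

theorem ot_sum_cyclic {M : Type*} [AddCommMonoid M] (n : ℕ) (f : ℕ → M) (h : f n = f 0) :
    ∑ i ∈ Finset.range n, f (i + 1) = ∑ i ∈ Finset.range n, f i := by
  cases n with
  | zero => simp
  | succ k => rw [Finset.sum_range_succ (fun i => f (i + 1)) k, Finset.sum_range_succ' f k, h]

/-- the perturbation argument, at scale `r` -/
theorem ot_cm_aux {μ ν : Measure X} {q : Measure (X × X)} [IsFiniteMeasure q] (hq : IsOptimalCoupling q μ ν)
    (hfin : QuadraticTransportCost q ≠ ∞) (n : ℕ) (p : ℕ → X × X) (hp : ∀ i, p i ∈ q.support) (hcyc : p n = p 0)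
    {r : ℝ} (hr : 0 < r) :
    ∑ i ∈ Finset.range n, ENNReal.ofReal (dist (p i).1 (p i).2 - 2 * r) ^ 2 ≤
      ∑ i ∈ Finset.range n, ENNReal.ofReal (dist (p (i + 1)).1 (p i).2 + 2 * r) ^ 2 := by
  rcases Nat.eq_zero_or_pos n with rfl | hn
  · simp
  have hne : (Finset.range n).Nonempty := ⟨0, Finset.mem_range.2 hn⟩
  set m : ℕ → ℝ≥0∞ := fun i => q (Metric.ball (p i).1 r ×ˢ Metric.ball (p i).2 r) with hm
  set t0 : ℝ≥0∞ := (Finset.range n).inf m with ht0
  obtain ⟨i0, hi0, hi0'⟩ := Finset.exists_mem_eq_inf (Finset.range n) hne m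
  have ht0ne : t0 ≠ 0 := by rw [ht0, hi0']; exact (ot_piece_mass hr (hp i0)).1
  have ht0top : t0 ≠ ∞ := by rw [ht0, hi0']; exact (ot_piece_mass hr (hp i0)).2
  have hn0 : (n : ℝ≥0∞) ≠ 0 := by exact_mod_cast hn.ne'
  have hntop : (n : ℝ≥0∞) ≠ ∞ := ENNReal.natCast_ne_top n
  set t : ℝ≥0∞ := (n : ℝ≥0∞)⁻¹ * t0 with ht
  have htne : t ≠ 0 := mul_ne_zero (ENNReal.inv_ne_zero.2 hntop) ht0ne
  have httop : t ≠ ∞ := ENNReal.mul_ne_top (ENNReal.inv_ne_top.2 hn0) ht0top
  have hprob : ∀ i, IsProbabilityMeasure (ot_piece q r (p i)) := fun i => ot_piece_prob hr (hp i)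
  set a : ℕ → Measure X := fun i => (ot_piece q r (p i)).map Prod.fst with ha
  set b : ℕ → Measure X := fun i => (ot_piece q r (p i)).map Prod.snd with hb
  have hpa : ∀ i, IsProbabilityMeasure (a i) := fun i =>
    Measure.isProbabilityMeasure_map measurable_fst.aemeasurable
  have hpb : ∀ i, IsProbabilityMeasure (b i) := fun i =>
    Measure.isProbabilityMeasure_map measurable_snd.aemeasurable
  set q' : Measure (X × X) := ∑ i ∈ Finset.range n, t • ot_piece q r (p i) with hq'
  set q'' : Measure (X × X) := ∑ i ∈ Finset.range n, t • (a (i + 1)).prod (b i) with hq''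
  have hle : q' ≤ q := by
    have h1 : ∀ i ∈ Finset.range n, t • ot_piece q r (p i) ≤ (n : ℝ≥0∞)⁻¹ • q := by
      intro i hi
      have h2 : t0 • ot_piece q r (p i) ≤ q := ot_piece_le hr (hp i) (Finset.inf_le hi)
      rw [ht, mul_smul]
      intro s
      simp only [Measure.smul_apply, smul_eq_mul]
      exact mul_le_mul_right (by simpa using h2 s) _
    calc q' ≤ ∑ i ∈ Finset.range n, (n : ℝ≥0∞)⁻¹ • q := Finset.sum_le_sum h1
      _ = q := by
        rw [Finset.sum_const, Finset.card_range]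
        ext s _
        simp only [Measure.smul_apply, smul_eq_mul, nsmul_eq_mul]
        rw [← mul_assoc, ENNReal.mul_inv_cancel hn0 hntop, one_mul]
  have hfst : q''.map Prod.fst = q'.map Prod.fst := by
    rw [hq'', hq', ot_map_finset_sum measurable_fst, ot_map_finset_sum measurable_fst]
    have h1 : ∀ i, (t • (a (i + 1)).prod (b i)).map Prod.fst = t • a (i + 1) := by
      intro i
      rw [Measure.map_smul, Measure.map_fst_prod, measure_univ, one_smul]
    have h2 : ∀ i, (t • ot_piece q r (p i)).map Prod.fst = t • a i := by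
      intro i
      rw [Measure.map_smul]
    simp only [h1, h2]
    exact ot_sum_cyclic n (fun i => t • a i) (by simp only [ha, hcyc])
  have hsnd : q''.map Prod.snd = q'.map Prod.snd := by
    rw [hq'', hq', ot_map_finset_sum measurable_snd, ot_map_finset_sum measurable_snd]
    refine Finset.sum_congr rfl fun i _ => ?_
    rw [Measure.map_smul, Measure.map_smul, Measure.map_snd_prod, measure_univ, one_smul]
  have hcost := ot_subplan_le hq hfin hle hfst hsnd
  rw [hq', hq'', ot_cost_finset_sum, ot_cost_finset_sum] at hcost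
  have hcost' := (ENNReal.mul_le_mul_iff_right htne httop).1 hcost
  refine le_trans (Finset.sum_le_sum fun i _ => ?_) (le_trans hcost' (Finset.sum_le_sum fun i _ => ?_))
  · refine ot_cost_ge_of_balls ?_
    exact ot_coupling_conc (μ := a i) (ν := b i) ⟨rfl, rfl⟩ Metric.isOpen_ball.measurableSet
      Metric.isOpen_ball.measurableSet (ot_piece_fst q r (p i)) (ot_piece_snd q r (p i))
  · refine ot_cost_le_of_balls ?_
    exact ot_coupling_conc (ot_coupling_prod (a (i + 1)) (b i)) Metric.isOpen_ball.measurableSet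
      Metric.isOpen_ball.measurableSet (ot_piece_fst q r (p (i + 1))) (ot_piece_snd q r (p i))

/-- **cyclical monotonicity** of the support of an optimal coupling of finite cost -/
theorem ot_cm {μ ν : Measure X} {q : Measure (X × X)} [IsFiniteMeasure q] (hq : IsOptimalCoupling q μ ν)
    (hfin : QuadraticTransportCost q ≠ ∞) (n : ℕ) (p : ℕ → X × X) (hp : ∀ i, p i ∈ q.support) (hcyc : p n = p 0) :
    ∑ i ∈ Finset.range n, dist (p i).1 (p i).2 ^ 2 ≤ ∑ i ∈ Finset.range n, dist (p (i + 1)).1 (p i).2 ^ 2 := by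
  have key : ∀ r : ℝ, 0 < r →
      ∑ i ∈ Finset.range n, (max (dist (p i).1 (p i).2 - 2 * r) 0) ^ 2 ≤
        ∑ i ∈ Finset.range n, (dist (p (i + 1)).1 (p i).2 + 2 * r) ^ 2 := by
    intro r hr
    have h := ot_cm_aux hq hfin n p hp hcyc hr
    have e1 : ∀ i, ENNReal.ofReal (dist (p i).1 (p i).2 - 2 * r) ^ 2 =
        ENNReal.ofReal ((max (dist (p i).1 (p i).2 - 2 * r) 0) ^ 2) := by
      intro i
      rw [ENNReal.ofReal_pow (le_max_right _ _)]
      congr 1
      rcases le_total (dist (p i).1 (p i).2 - 2 * r) 0 with h0 | h0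
      · rw [max_eq_right h0, ENNReal.ofReal_of_nonpos h0, ENNReal.ofReal_zero]
      · rw [max_eq_left h0]
    have e2 : ∀ i, ENNReal.ofReal (dist (p (i + 1)).1 (p i).2 + 2 * r) ^ 2 =
        ENNReal.ofReal ((dist (p (i + 1)).1 (p i).2 + 2 * r) ^ 2) := by
      intro i
      rw [ENNReal.ofReal_pow (by positivity)]
    simp only [e1, e2] at h
    rw [← ENNReal.ofReal_sum_of_nonneg (fun i _ => by positivity),
      ← ENNReal.ofReal_sum_of_nonneg (fun i _ => by positivity)] at h
    exact (ENNReal.ofReal_le_ofReal_iff (Finset.sum_nonneg (fun i _ => by positivity))).1 h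
  have c1 : Tendsto (fun r : ℝ => ∑ i ∈ Finset.range n, (max (dist (p i).1 (p i).2 - 2 * r) 0) ^ 2)
      (𝓝[>] 0) (𝓝 (∑ i ∈ Finset.range n, dist (p i).1 (p i).2 ^ 2)) := by
    have hc : Continuous (fun r : ℝ => ∑ i ∈ Finset.range n, (max (dist (p i).1 (p i).2 - 2 * r) 0) ^ 2) := by
      fun_prop
    have h0 := (hc.tendsto 0).mono_left (nhdsWithin_le_nhds (s := Ioi (0 : ℝ)))
    have e : (∑ i ∈ Finset.range n, (max (dist (p i).1 (p i).2 - 2 * (0 : ℝ)) 0) ^ 2) =
        ∑ i ∈ Finset.range n, dist (p i).1 (p i).2 ^ 2 := by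
      refine Finset.sum_congr rfl (fun i _ => ?_)
      rw [mul_zero, sub_zero, max_eq_left dist_nonneg]
    rwa [e] at h0
  have c2 : Tendsto (fun r : ℝ => ∑ i ∈ Finset.range n, (dist (p (i + 1)).1 (p i).2 + 2 * r) ^ 2)
      (𝓝[>] 0) (𝓝 (∑ i ∈ Finset.range n, dist (p (i + 1)).1 (p i).2 ^ 2)) := by
    have hc : Continuous (fun r : ℝ => ∑ i ∈ Finset.range n, (dist (p (i + 1)).1 (p i).2 + 2 * r) ^ 2) := by
      fun_prop
    have h0 := (hc.tendsto 0).mono_left (nhdsWithin_le_nhds (s := Ioi (0 : ℝ)))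
    simpa using h0
  exact le_of_tendsto_of_tendsto c1 c2 (by
    filter_upwards [self_mem_nhdsWithin] with r hr
    exact key r hr)

end Claimed.Agent.R210.OT.CM
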