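/-
Row 210 (S0432), layer OT (optimal transport), architect helper578.   OT5: weak duality, Kantorovich pairs.
Master plan: `git show origin/helper928:docs/R210_master.md`; map of the layer: header of `R210/OT/Ifc.lean`.
-/
import Claimed.Agent.R210.OT.Exist

set_option autoImplicit false

open Claims.C0366 Claims.C0366.WeakHessian
open Set Filter MeasureTheory
open scoped ENNReal NNReal Topology BoundedContinuousFunction
open Claimed.Agent.R210.Defs Claimed.Agent.R210.OT.Defs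

namespace Claimed.Agent.R210.OT.Dual

open Claimed.Agent.R210.OT.Weak Claimed.Agent.R210.OT.Basic Claimed.Agent.R210.OT.Exist

variable {X : Type*} [MetricSpace X] [MeasurableSpace X] [BorelSpace X] [CompleteSpace X]
  [TopologicalSpace.SeparableSpace X]

theorem ot_int_add {q : Measure (X × X)} {μ ν : Measure X} [IsProbabilityMeasure μ] (hq : IsCoupling q μ ν)
    {a b : X → ℝ} (ha : Measurable a) (hb : Measurable b) (ha' : BoundedFunction a) (hb' : BoundedFunction b) :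
    Integrable (fun p : X × X => a p.1 + b p.2) q ∧
      ∫ p, (a p.1 + b p.2) ∂q = ∫ x, a x ∂μ + ∫ y, b y ∂ν := by
  haveI : IsProbabilityMeasure q := ot_coupling_prob hq
  obtain ⟨Ba, hBa⟩ := ha'
  obtain ⟨Bb, hBb⟩ := hb'
  have i1 : Integrable (fun p : X × X => a p.1) q :=
    Integrable.of_bound (ha.comp measurable_fst).aestronglyMeasurable Ba
      (Filter.Eventually.of_forall fun p => by simpa [Real.norm_eq_abs] using hBa p.1)
  have i2 : Integrable (fun p : X × X => b p.2) q :=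
    Integrable.of_bound (hb.comp measurable_snd).aestronglyMeasurable Bb
      (Filter.Eventually.of_forall fun p => by simpa [Real.norm_eq_abs] using hBb p.2)
  refine ⟨i1.add i2, ?_⟩
  rw [integral_add i1 i2]
  congr 1
  · rw [← hq.1, integral_map measurable_fst.aemeasurable ha.aestronglyMeasurable]
  · rw [← hq.2, integral_map measurable_snd.aemeasurable hb.aestronglyMeasurable]

theorem ot_meas_edist_sq : Measurable (fun p : X × X => (edist p.1 p.2) ^ 2) := by
  haveI : SecondCountableTopology X := UniformSpace.secondCountable_of_separable X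
  exact (measurable_edist).pow_const 2

theorem ot_int_dist_sq {q : Measure (X × X)} (hc : QuadraticTransportCost q ≠ ∞) :
    Integrable (fun p : X × X => dist p.1 p.2 ^ 2) q ∧
      ∫ p, dist p.1 p.2 ^ 2 ∂q = (QuadraticTransportCost q).toReal := by
  have hm : Measurable (fun p : X × X => (edist p.1 p.2) ^ 2) := ot_meas_edist_sq
  have he : (fun p : X × X => dist p.1 p.2 ^ 2) = fun p : X × X => ((edist p.1 p.2) ^ 2).toReal := by
    funext p
    rw [ENNReal.toReal_pow, dist_edist]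
  rw [he]
  refine ⟨integrable_toReal_of_lintegral_ne_top hm.aemeasurable hc, ?_⟩
  rw [integral_toReal hm.aemeasurable]
  · rfl
  · exact Filter.Eventually.of_forall fun p => ENNReal.pow_lt_top (edist_lt_top _ _)

theorem ot_int_gap {q : Measure (X × X)} {μ ν : Measure X} [IsProbabilityMeasure μ] (hq : IsCoupling q μ ν)
    (hc : QuadraticTransportCost q ≠ ∞)
    {a b : X → ℝ} (ha : Measurable a) (hb : Measurable b) (ha' : BoundedFunction a) (hb' : BoundedFunction b) :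
    Integrable (fun p : X × X => dist p.1 p.2 ^ 2 / 2 - (a p.1 + b p.2)) q ∧
      ∫ p, (dist p.1 p.2 ^ 2 / 2 - (a p.1 + b p.2)) ∂q =
        (QuadraticTransportCost q).toReal / 2 - (∫ x, a x ∂μ + ∫ y, b y ∂ν) := by
  obtain ⟨i1, e1⟩ := ot_int_add hq ha hb ha' hb'
  obtain ⟨i2, e2⟩ := ot_int_dist_sq hc
  refine ⟨(i2.div_const 2).sub i1, ?_⟩
  rw [integral_sub (i2.div_const 2) i1, integral_div, e1, e2]

theorem ot_lip_meas {a : X → ℝ} (h : GloballyLipschitz a) : Measurable a := by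
  obtain ⟨L, hL⟩ := h
  exact hL.continuous.measurable

theorem ot_weak_duality {μ ν : Measure X} [IsProbabilityMeasure μ] [IsProbabilityMeasure ν] (hW : W2sq μ ν ≠ ∞)
    {a b : X → ℝ} (ha : Measurable a) (hb : Measurable b) (ha' : BoundedFunction a) (hb' : BoundedFunction b)
    (hle : ∀ x y, a x + b y ≤ dist x y ^ 2 / 2) : ∫ x, a x ∂μ + ∫ y, b y ∂ν ≤ W2sqR μ ν / 2 := by
  obtain ⟨q, hq⟩ := ot_exists_optimal μ ν
  have hWc : W2sq μ ν = QuadraticTransportCost q := ot_W2sq_eq_cost hq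
  have hc : QuadraticTransportCost q ≠ ∞ := hWc ▸ hW
  obtain ⟨_, e⟩ := ot_int_gap hq.1 hc ha hb ha' hb'
  have h0 : 0 ≤ ∫ p, (dist p.1 p.2 ^ 2 / 2 - (a p.1 + b p.2)) ∂q :=
    integral_nonneg fun p => sub_nonneg.2 (hle p.1 p.2)
  rw [e] at h0
  unfold W2sqR
  rw [hWc]
  linarith

theorem ot_kpair_finite {μ ν : Measure X} [IsProbabilityMeasure μ] [IsProbabilityMeasure ν] {a b : X → ℝ}
    (h : KPair μ ν a b) : W2sq μ ν ≠ ∞ := by
  obtain ⟨q, hq, hae⟩ := h.eq
  haveI : IsProbabilityMeasure q := ot_coupling_prob hq.1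
  obtain ⟨Ba, hBa⟩ := h.bdd_a
  obtain ⟨Bb, hBb⟩ := h.bdd_b
  rw [ot_W2sq_eq_cost hq]
  have hle : QuadraticTransportCost q ≤ ∫⁻ _p : X × X, ENNReal.ofReal (2 * (Ba + Bb)) ∂q := by
    unfold QuadraticTransportCost
    refine lintegral_mono_ae ?_
    filter_upwards [hae] with p hp
    rw [edist_dist, ← ENNReal.ofReal_pow dist_nonneg]
    refine ENNReal.ofReal_le_ofReal ?_
    have h1 := (abs_le.1 (hBa p.1)).2
    have h2 := (abs_le.1 (hBb p.2)).2
    linarith
  refine ne_top_of_le_ne_top ?_ hle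
  rw [lintegral_const, measure_univ, mul_one]
  exact ENNReal.ofReal_ne_top

theorem ot_kpair_eq {μ ν : Measure X} [IsProbabilityMeasure μ] [IsProbabilityMeasure ν] {a b : X → ℝ}
    (h : KPair μ ν a b) : ∫ x, a x ∂μ + ∫ y, b y ∂ν = W2sqR μ ν / 2 := by
  have hW := ot_kpair_finite h
  obtain ⟨q, hq, hae⟩ := h.eq
  have hWc : W2sq μ ν = QuadraticTransportCost q := ot_W2sq_eq_cost hq
  have hc : QuadraticTransportCost q ≠ ∞ := hWc ▸ hW
  obtain ⟨_, e⟩ := ot_int_gap hq.1 hc (ot_lip_meas h.lip_a) (ot_lip_meas h.lip_b) h.bdd_a h.bdd_b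
  have h0 : ∫ p, (dist p.1 p.2 ^ 2 / 2 - (a p.1 + b p.2)) ∂q = 0 := by
    rw [← integral_zero (X × X) ℝ (μ := q)]
    refine integral_congr_ae ?_
    filter_upwards [hae] with p hp
    rw [hp, sub_self]
  rw [e] at h0
  unfold W2sqR
  rw [hWc]
  linarith

theorem ot_ae_of_gap {μ ν : Measure X} [IsProbabilityMeasure μ] [IsProbabilityMeasure ν] {a b : X → ℝ}
    (hW : W2sq μ ν ≠ ∞) (ha : Measurable a) (hb : Measurable b) (ha' : BoundedFunction a) (hb' : BoundedFunction b)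
    (hle : ∀ x y, a x + b y ≤ dist x y ^ 2 / 2)
    (heq : W2sqR μ ν / 2 ≤ ∫ x, a x ∂μ + ∫ y, b y ∂ν)
    {q : Measure (X × X)} (hq : IsOptimalCoupling q μ ν) :
    ∀ᵐ p ∂q, a p.1 + b p.2 = dist p.1 p.2 ^ 2 / 2 := by
  have hWc : W2sq μ ν = QuadraticTransportCost q := ot_W2sq_eq_cost hq
  have hc : QuadraticTransportCost q ≠ ∞ := hWc ▸ hW
  obtain ⟨i, e⟩ := ot_int_gap hq.1 hc ha hb ha' hb'
  have hnn : 0 ≤ fun p : X × X => dist p.1 p.2 ^ 2 / 2 - (a p.1 + b p.2) :=
    fun p => sub_nonneg.2 (hle p.1 p.2)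
  have h0 : ∫ p, (dist p.1 p.2 ^ 2 / 2 - (a p.1 + b p.2)) ∂q = 0 := by
    refine le_antisymm ?_ (integral_nonneg hnn)
    rw [e]
    unfold W2sqR at heq
    rw [hWc] at heq
    linarith
  have h1 := (integral_eq_zero_iff_of_nonneg hnn i).1 h0
  filter_upwards [h1] with p hp
  have : dist p.1 p.2 ^ 2 / 2 - (a p.1 + b p.2) = 0 := hp
  linarith

theorem ot_kpair_ae {μ ν : Measure X} [IsProbabilityMeasure μ] [IsProbabilityMeasure ν] {a b : X → ℝ}
    (h : KPair μ ν a b) {q : Measure (X × X)} (hq : IsOptimalCoupling q μ ν) :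
    ∀ᵐ p ∂q, a p.1 + b p.2 = dist p.1 p.2 ^ 2 / 2 :=
  ot_ae_of_gap (ot_kpair_finite h) (ot_lip_meas h.lip_a) (ot_lip_meas h.lip_b) h.bdd_a h.bdd_b h.le
    (ot_kpair_eq h).ge hq

/-- converse: admissible bounded Lipschitz pair with the right value is a Kantorovich pair -/
theorem ot_kpair_of_eq {μ ν : Measure X} [IsProbabilityMeasure μ] [IsProbabilityMeasure ν] {a b : X → ℝ}
    (hW : W2sq μ ν ≠ ∞) (ha : LipB a) (hb : LipB b) (hle : ∀ x y, a x + b y ≤ dist x y ^ 2 / 2)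
    (heq : W2sqR μ ν / 2 ≤ ∫ x, a x ∂μ + ∫ y, b y ∂ν) : KPair μ ν a b := by
  obtain ⟨q, hq⟩ := ot_exists_optimal μ ν
  exact ⟨ha.1, hb.1, ha.2, hb.2, hle, q, hq,
    ot_ae_of_gap hW (ot_lip_meas ha.1) (ot_lip_meas hb.1) ha.2 hb.2 hle heq hq⟩

end Claimed.Agent.R210.OT.Dual
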