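/-
Row 210 (S0432), layer OT (optimal transport), architect helper578.   OT4a: potentials on a weighted graph without negative cycles (pure combinatorics).
Master plan: `git show origin/helper928:docs/R210_master.md`; map of the layer: header of `R210/OT/Ifc.lean`.
-/
import Claimed.Agent.R210.OT.Defs

set_option autoImplicit false

open Claims.C0366 Claims.C0366.WeakHessian
open Set Filter MeasureTheory
open scoped ENNReal NNReal Topology BoundedContinuousFunction
open Claimed.Agent.R210.Defs Claimed.Agent.R210.OT.Defs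

namespace Claimed.Agent.R210.OT.Graph

variable {X : Type*} [MetricSpace X] [MeasurableSpace X] [BorelSpace X] [CompleteSpace X]
  [TopologicalSpace.SeparableSpace X]

/-- A bounded weight `w` on a nonempty type without negative cycles has a potential `e`, normalised by `inf e = 0`.
(`e₀ v` = infimum of the weights of the paths from a fixed `v₀` to `v`; bounded below by `-C` by closing the path.) -/
theorem ot_graph_potential {V : Type*} [Nonempty V] (w : V → V → ℝ) {C : ℝ} (hC : ∀ u v, |w u v| ≤ C)
    (hcyc : ∀ (n : ℕ) (v : ℕ → V), v n = v 0 → 0 ≤ ∑ i ∈ Finset.range n, w (v i) (v (i + 1))) :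
    ∃ e : V → ℝ, (∀ u v, e v ≤ e u + w u v) ∧ (∀ v, 0 ≤ e v) ∧ (∀ ε > 0, ∃ v, e v < ε) := by
  classical
  obtain ⟨v₀⟩ := ‹Nonempty V›
  set P : V → Set ℝ := fun v => {s | ∃ (n : ℕ) (p : ℕ → V), p 0 = v₀ ∧ p n = v ∧
    s = ∑ i ∈ Finset.range n, w (p i) (p (i + 1))} with hP
  have hne : ∀ v, (P v).Nonempty := by
    intro v
    refine ⟨w v₀ v, 1, fun i => if i = 0 then v₀ else v, by simp, by simp, by simp⟩
  have hlb : ∀ v, ∀ s ∈ P v, -C ≤ s := by
    rintro v s ⟨n, p, h0, hn, rfl⟩
    have h := hcyc (n + 1) (fun i => if i ≤ n then p i else v₀) (by simp [h0])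
    rw [Finset.sum_range_succ] at h
    have h1 : ∑ i ∈ Finset.range n, w (if i ≤ n then p i else v₀) (if i + 1 ≤ n then p (i + 1) else v₀)
        = ∑ i ∈ Finset.range n, w (p i) (p (i + 1)) := by
      refine Finset.sum_congr rfl fun i hi => ?_
      have hi' : i < n := Finset.mem_range.mp hi
      rw [if_pos hi'.le, if_pos (Nat.succ_le_of_lt hi')]
    rw [h1] at h
    simp only [le_refl, if_true, Nat.succ_le_iff, lt_irrefl, if_false, hn] at h
    have := (abs_le.mp (hC v v₀)).2
    linarith
  have hbdd : ∀ v, BddBelow (P v) := fun v => ⟨-C, fun s hs => hlb v s hs⟩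
  set e₀ : V → ℝ := fun v => sInf (P v) with he₀
  have he₀lb : ∀ v, -C ≤ e₀ v := fun v => le_csInf (hne v) (hlb v)
  have htri : ∀ u v, e₀ v ≤ e₀ u + w u v := by
    intro u v
    have : e₀ v - w u v ≤ e₀ u := by
      refine le_csInf (hne u) ?_
      rintro s ⟨n, p, h0, hn, rfl⟩
      have hmem : (∑ i ∈ Finset.range n, w (p i) (p (i + 1))) + w u v ∈ P v := by
        refine ⟨n + 1, fun i => if i ≤ n then p i else v, by simp [h0], by simp, ?_⟩
        rw [Finset.sum_range_succ]
        have h1 : ∑ i ∈ Finset.range n, w (if i ≤ n then p i else v) (if i + 1 ≤ n then p (i + 1) else v)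
            = ∑ i ∈ Finset.range n, w (p i) (p (i + 1)) := by
          refine Finset.sum_congr rfl fun i hi => ?_
          have hi' : i < n := Finset.mem_range.mp hi
          rw [if_pos hi'.le, if_pos (Nat.succ_le_of_lt hi')]
        rw [h1]
        simp [hn]
      have := csInf_le (hbdd v) hmem
      simp only [he₀]
      linarith
    linarith
  have hbdd' : BddBelow (Set.range e₀) := ⟨-C, by rintro _ ⟨v, rfl⟩; exact he₀lb v⟩
  refine ⟨fun v => e₀ v - ⨅ v, e₀ v, ?_, ?_, ?_⟩
  · intro u v
    have := htri u v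
    linarith
  · intro v
    have := ciInf_le hbdd' v
    linarith
  · intro ε hε
    have : Nonempty V := ⟨v₀⟩
    obtain ⟨v, hv⟩ := exists_lt_of_ciInf_lt (show (⨅ v, e₀ v) < (⨅ v, e₀ v) + ε by linarith)
    exact ⟨v, by linarith⟩

end Claimed.Agent.R210.OT.Graph
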