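/-
Row 210 (S0432), layer OT (optimal transport), architect helper578.   OT4d: `hopfLax 1 u` for a bounded function `u` (no measures).
Master plan: `git show origin/helper928:docs/R210_master.md`; map of the layer: header of `R210/OT/Ifc.lean`.
-/
import Claimed.Agent.R210.OT.Defs

set_option autoImplicit false

open Claims.C0366 Claims.C0366.WeakHessian
open Set Filter MeasureTheory
open scoped ENNReal NNReal Topology BoundedContinuousFunction
open Claimed.Agent.R210.Defs Claimed.Agent.R210.OT.Defs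

namespace Claimed.Agent.R210.OT.HLip

variable {X : Type*} [MetricSpace X] [MeasurableSpace X] [BorelSpace X] [CompleteSpace X]
  [TopologicalSpace.SeparableSpace X]

omit [MeasurableSpace X] [BorelSpace X] [CompleteSpace X] [TopologicalSpace.SeparableSpace X] in
theorem ot_hopfLax_one_eq (u : X → ℝ) (y : X) :
    hopfLax 1 u y = ⨅ z : X, (u z + dist z y ^ 2 / 2) := by
  unfold hopfLax
  rw [if_pos one_pos]
  simp

omit [MeasurableSpace X] [BorelSpace X] [CompleteSpace X] [TopologicalSpace.SeparableSpace X] in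
theorem ot_hopfLax_bddBelow (u : X → ℝ) {T : ℝ} (h1 : ∀ x, -T ≤ u x) (y : X) :
    BddBelow (Set.range fun z : X => u z + dist z y ^ 2 / 2) := by
  refine ⟨-T, ?_⟩
  rintro _ ⟨z, rfl⟩
  have := h1 z
  have h2 : 0 ≤ dist z y ^ 2 / 2 := by positivity
  simp only
  linarith

theorem ot_hopfLax_le (u : X → ℝ) {T : ℝ} (h1 : ∀ x, -T ≤ u x) (x y : X) :
    hopfLax 1 u y ≤ u x + dist x y ^ 2 / 2 := by
  rw [ot_hopfLax_one_eq]
  exact ciInf_le (ot_hopfLax_bddBelow u h1 y) x

theorem ot_le_hopfLax (u : X → ℝ) (y : X) {t : ℝ} (h : ∀ x, t ≤ u x + dist x y ^ 2 / 2) : t ≤ hopfLax 1 u y := by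
  rw [ot_hopfLax_one_eq]
  haveI : Nonempty X := ⟨y⟩
  exact le_ciInf h

theorem ot_hopfLax_ge (u : X → ℝ) {T : ℝ} (h1 : ∀ x, -T ≤ u x) (y : X) : -T ≤ hopfLax 1 u y := by
  refine ot_le_hopfLax u y fun x => ?_
  have := h1 x
  have h2 : 0 ≤ dist x y ^ 2 / 2 := by positivity
  linarith

theorem ot_hopfLax_lipschitz_aux (u : X → ℝ) {T : ℝ} (h1 : ∀ x, -T ≤ u x) (h2 : ∀ x, u x ≤ 0)
    (y y' : X) (hd : dist y' y ≤ 1) {η : ℝ} (hη : 0 < η) (hη1 : η ≤ 1) :
    hopfLax 1 u y' ≤ hopfLax 1 u y + (Real.sqrt (2 * T) + 1 / 2) * dist y' y + 3 * η := by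
  have hT : 0 ≤ T := by have := h1 y; have := h2 y; linarith
  haveI : Nonempty X := ⟨y⟩
  have hlt : (⨅ z : X, (u z + dist z y ^ 2 / 2)) < hopfLax 1 u y + η ^ 2 := by
    rw [ot_hopfLax_one_eq]
    have : 0 < η ^ 2 := by positivity
    linarith
  obtain ⟨z, hz⟩ := exists_lt_of_ciInf_lt hlt
  have hQy : hopfLax 1 u y ≤ 0 := by
    have := ot_hopfLax_le u h1 y y
    simp only [dist_self] at this
    have := h2 y
    linarith
  set r := dist z y with hr
  set δ := dist y' y with hδ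
  have hr0 : 0 ≤ r := dist_nonneg
  have hδ0 : 0 ≤ δ := dist_nonneg
  have hs0 : 0 ≤ Real.sqrt (2 * T) := Real.sqrt_nonneg _
  have hs2 : Real.sqrt (2 * T) ^ 2 = 2 * T := Real.sq_sqrt (by positivity)
  have hr2 : r ^ 2 ≤ 2 * T + 2 * η ^ 2 := by
    have := h1 z
    linarith
  have hrle : r ≤ Real.sqrt (2 * T) + 2 * η := by
    by_contra hcon
    push_neg at hcon
    nlinarith [mul_nonneg hs0 hη.le]
  have htri : dist z y' ≤ r + δ := by
    have := dist_triangle z y y'
    rw [dist_comm y y'] at this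
    exact this
  have hsq : dist z y' ^ 2 ≤ (r + δ) ^ 2 := by
    apply pow_le_pow_left₀ dist_nonneg htri
  have h3 := ot_hopfLax_le u h1 z y'
  have hη2 : η ^ 2 ≤ η := by nlinarith
  have hδ2 : δ ^ 2 ≤ δ := by nlinarith
  have hrδ : r * δ ≤ (Real.sqrt (2 * T) + 2 * η) * δ := mul_le_mul_of_nonneg_right hrle hδ0
  have hηδ : η * δ ≤ η := by nlinarith
  nlinarith

theorem ot_hopfLax_lipschitz (u : X → ℝ) {T D1 : ℝ} (hD1 : 0 ≤ D1) (h1 : ∀ x, -T ≤ u x) (h2 : ∀ x, u x ≤ 0) :
    LipschitzWith (ot_lipConst T D1) (hopfLax 1 u) := by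
  apply LipschitzWith.of_le_add_mul
  intro y' y
  have hT : 0 ≤ T := by have := h1 y; have := h2 y; linarith
  have hK : ((ot_lipConst T D1 : ℝ≥0) : ℝ) = max T (Real.sqrt (2 * T) + D1 + 1 / 2) := by
    unfold ot_lipConst
    exact Real.coe_toNNReal _ (le_trans hT (le_max_left _ _))
  rw [hK]
  have hδ0 : 0 ≤ dist y' y := dist_nonneg
  rcases le_or_gt (dist y' y) 1 with hd | hd
  · have hle : hopfLax 1 u y' ≤ hopfLax 1 u y + (Real.sqrt (2 * T) + 1 / 2) * dist y' y := by
      apply le_of_forall_pos_le_add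
      intro ε hε
      have hη : 0 < min 1 (ε / 3) := lt_min one_pos (by positivity)
      have := ot_hopfLax_lipschitz_aux u h1 h2 y y' hd hη (min_le_left _ _)
      have h3 : 3 * min 1 (ε / 3) ≤ ε := by
        have := min_le_right 1 (ε / 3)
        linarith
      linarith
    have hmax : Real.sqrt (2 * T) + 1 / 2 ≤ max T (Real.sqrt (2 * T) + D1 + 1 / 2) :=
      le_trans (by linarith) (le_max_right _ _)
    have := mul_le_mul_of_nonneg_right hmax hδ0
    linarith
  · have hQy' : hopfLax 1 u y' ≤ 0 := by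
      have := ot_hopfLax_le u h1 y' y'
      simp only [dist_self] at this
      have := h2 y'
      linarith
    have hQy := ot_hopfLax_ge u h1 y
    have hmax : T ≤ max T (Real.sqrt (2 * T) + D1 + 1 / 2) := le_max_left _ _
    have h4 : T * 1 ≤ max T (Real.sqrt (2 * T) + D1 + 1 / 2) * dist y' y :=
      mul_le_mul hmax hd.le zero_le_one (le_trans hT hmax)
    linarith

end Claimed.Agent.R210.OT.HLip
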