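/-
Row 210 (S0432), layer OT (optimal transport), architect helper578.   OT4c: the potential `inf_p (d(x,p.2)^2/2 + e p)` and its elementary properties (no measures).
Master plan: `git show origin/helper928:docs/R210_master.md`; map of the layer: header of `R210/OT/Ifc.lean`.
-/
import Claimed.Agent.R210.OT.Defs

set_option autoImplicit false

open Claims.C0366 Claims.C0366.WeakHessian
open Set Filter MeasureTheory
open scoped ENNReal NNReal Topology BoundedContinuousFunction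
open Claimed.Agent.R210.Defs Claimed.Agent.R210.OT.Defs

namespace Claimed.Agent.R210.OT.Pot

variable {X : Type*} [MetricSpace X] [MeasurableSpace X] [BorelSpace X] [CompleteSpace X]
  [TopologicalSpace.SeparableSpace X]

/-- the potential generated by a set `Γ` of pairs and a function `e` on it -/
noncomputable def ot_pot (Γ : Set (X × X)) (e : X × X → ℝ) (x : X) : ℝ :=
  ⨅ p : Γ, (dist x (p : X × X).2 ^ 2 / 2 + e p)

variable {Γ : Set (X × X)} {e : X × X → ℝ} {S1 : Set X}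

omit [MeasurableSpace X] [BorelSpace X] [CompleteSpace X] [TopologicalSpace.SeparableSpace X] in
theorem ot_pot_bddBelow (he0 : ∀ p ∈ Γ, 0 ≤ e p) (x : X) :
    BddBelow (Set.range fun p : Γ => dist x (p : X × X).2 ^ 2 / 2 + e p) := by
  refine ⟨0, ?_⟩
  rintro _ ⟨p, rfl⟩
  have := he0 p p.2
  positivity

theorem ot_pot_le_of_mem (he0 : ∀ p ∈ Γ, 0 ≤ e p) {p : X × X} (hp : p ∈ Γ) (x : X) :
    ot_pot Γ e x ≤ dist x p.2 ^ 2 / 2 + e p := by
  exact ciInf_le (ot_pot_bddBelow he0 x) (⟨p, hp⟩ : Γ)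

theorem ot_pot_exists_lt (hΓ : Γ.Nonempty) (x : X) {t : ℝ} (ht : ot_pot Γ e x < t) :
    ∃ p ∈ Γ, dist x p.2 ^ 2 / 2 + e p < t := by
  haveI : Nonempty Γ := hΓ.to_subtype
  obtain ⟨p, hp⟩ := exists_lt_of_ciInf_lt ht
  exact ⟨p, p.2, hp⟩

theorem ot_pot_nonneg (he0 : ∀ p ∈ Γ, 0 ≤ e p) (x : X) : 0 ≤ ot_pot Γ e x := by
  refine Real.iInf_nonneg fun p => ?_
  have := he0 p p.2
  positivity

theorem ot_pot_le (he0 : ∀ p ∈ Γ, 0 ≤ e p) (heps : ∀ ε > 0, ∃ p ∈ Γ, e p < ε) (hS1 : ∀ p ∈ Γ, p.2 ∈ S1)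
    {x : X} {D : ℝ} (hD : ∀ y ∈ S1, dist x y ≤ D) : ot_pot Γ e x ≤ D ^ 2 / 2 := by
  refine le_of_forall_pos_le_add fun ε hε => ?_
  obtain ⟨p, hp, hpe⟩ := heps ε hε
  have h1 := ot_pot_le_of_mem he0 hp x
  have h2 := hD p.2 (hS1 p hp)
  have h3 : dist x p.2 ^ 2 ≤ D ^ 2 := pow_le_pow_left₀ dist_nonneg h2 2
  linarith

theorem ot_pot_diff (hΓ : Γ.Nonempty) (he0 : ∀ p ∈ Γ, 0 ≤ e p) (hS1 : ∀ p ∈ Γ, p.2 ∈ S1)
    {x : X} {D : ℝ} (hD : ∀ y ∈ S1, dist x y ≤ D) (x' : X) :
    |ot_pot Γ e x' - ot_pot Γ e x| ≤ dist x x' * (2 * D + dist x x') / 2 := by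
  have hδ : 0 ≤ dist x x' := dist_nonneg
  obtain ⟨p0, hp0⟩ := hΓ
  have hD0 : 0 ≤ D := le_trans dist_nonneg (hD _ (hS1 _ hp0))
  have hΓ' : Γ.Nonempty := ⟨p0, hp0⟩
  rw [abs_le]
  constructor
  · -- `φ x ≤ φ x' + C`
    have h : ot_pot Γ e x ≤ ot_pot Γ e x' + dist x x' * (2 * D + dist x x') / 2 := by
      refine le_of_forall_pos_le_add fun ε hε => ?_
      obtain ⟨p, hp, hlt⟩ := ot_pot_exists_lt hΓ' x' (t := ot_pot Γ e x' + ε) (by linarith)
      have h1 := ot_pot_le_of_mem he0 hp x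
      have h2 : dist x p.2 ≤ D := hD _ (hS1 _ hp)
      have h3 : dist x p.2 ≤ dist x x' + dist x' p.2 := dist_triangle _ _ _
      have h4 : 0 ≤ dist x p.2 := dist_nonneg
      have h5 : 0 ≤ dist x' p.2 := dist_nonneg
      have h6 : dist x p.2 ^ 2 - dist x' p.2 ^ 2 ≤ dist x x' * (2 * D + dist x x') := by
        rcases le_total (dist x' p.2) (dist x p.2) with h | h
        · have e1 : dist x p.2 ^ 2 - dist x' p.2 ^ 2
              = (dist x p.2 - dist x' p.2) * (dist x p.2 + dist x' p.2) := by ring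
          rw [e1]
          have a1 : dist x p.2 - dist x' p.2 ≤ dist x x' := by linarith
          have a2 : dist x p.2 + dist x' p.2 ≤ 2 * D + dist x x' := by linarith
          have a3 : 0 ≤ dist x p.2 - dist x' p.2 := by linarith
          exact mul_le_mul a1 a2 (by linarith) hδ
        · have : dist x p.2 ^ 2 ≤ dist x' p.2 ^ 2 := pow_le_pow_left₀ h4 h 2
          have : 0 ≤ dist x x' * (2 * D + dist x x') := by positivity
          linarith
      linarith
    linarith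
  · have h : ot_pot Γ e x' ≤ ot_pot Γ e x + dist x x' * (2 * D + dist x x') / 2 := by
      refine le_of_forall_pos_le_add fun ε hε => ?_
      obtain ⟨p, hp, hlt⟩ := ot_pot_exists_lt hΓ' x (t := ot_pot Γ e x + ε) (by linarith)
      have h1 := ot_pot_le_of_mem he0 hp x'
      have h2 : dist x p.2 ≤ D := hD _ (hS1 _ hp)
      have h3 : dist x' p.2 ≤ dist x x' + dist x p.2 := by
        have := dist_triangle x' x p.2
        rwa [dist_comm x' x] at this
      have h4 : 0 ≤ dist x p.2 := dist_nonneg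
      have h5 : 0 ≤ dist x' p.2 := dist_nonneg
      have h6 : dist x' p.2 ^ 2 ≤ (dist x x' + dist x p.2) ^ 2 := pow_le_pow_left₀ h5 h3 2
      have h7 : dist x x' * dist x p.2 ≤ dist x x' * D := mul_le_mul_of_nonneg_left h2 hδ
      nlinarith
    linarith

theorem ot_pot_slope (hΓ : Γ.Nonempty) (he0 : ∀ p ∈ Γ, 0 ≤ e p) (hS1 : ∀ p ∈ Γ, p.2 ∈ S1) (T : ℝ)
    {x : X} {D : ℝ} (hD : ∀ y ∈ S1, dist x y ≤ D) :
    localSlope (fun x => min (ot_pot Γ e x) T) x ≤ ENNReal.ofReal D := by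
  unfold localSlope
  refine ENNReal.le_of_forall_pos_le_add fun ε hε _ => ?_
  have hε' : (0 : ℝ) < ε := by exact_mod_cast hε
  refine le_trans (Filter.limsup_le_of_le (a := ENNReal.ofReal (D + ε)) (by isBoundedDefault) ?_) ?_
  · have hev : ∀ᶠ y in 𝓝[≠] x, dist y x < 2 * ε :=
      nhdsWithin_le_nhds (Metric.ball_mem_nhds x (by positivity))
    filter_upwards [hev, self_mem_nhdsWithin] with y hy hne
    have hpos : 0 < dist y x := dist_pos.mpr hne
    refine ENNReal.ofReal_le_ofReal ?_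
    rw [div_le_iff₀ hpos]
    have h1 : |min (ot_pot Γ e y) T - min (ot_pot Γ e x) T| ≤ |ot_pot Γ e y - ot_pot Γ e x| := by
      have := abs_min_sub_min_le_max (ot_pot Γ e y) T (ot_pot Γ e x) T
      simpa using this
    have h2 := ot_pot_diff hΓ he0 hS1 hD y
    rw [dist_comm x y] at h2
    nlinarith
  · refine le_trans ENNReal.ofReal_add_le ?_
    simp

theorem ot_pot_lipschitz (hΓ : Γ.Nonempty) (he0 : ∀ p ∈ Γ, 0 ≤ e p) (hS1 : ∀ p ∈ Γ, p.2 ∈ S1) {T D1 : ℝ}
    (hT : 0 ≤ T) (hD1 : ∀ y ∈ S1, ∀ y' ∈ S1, dist y y' ≤ D1) :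
    LipschitzWith (ot_lipConst T D1) (fun x => min (ot_pot Γ e x) T) := by
  have hK : ((ot_lipConst T D1 : ℝ≥0) : ℝ) = max T (Real.sqrt (2 * T) + D1 + 1 / 2) := by
    unfold ot_lipConst
    exact Real.coe_toNNReal _ (le_trans hT (le_max_left _ _))
  -- the one-sided estimate
  have key : ∀ x x' : X, ot_pot Γ e x ≤ ot_pot Γ e x' →
      |min (ot_pot Γ e x') T - min (ot_pot Γ e x) T|
        ≤ max T (Real.sqrt (2 * T) + D1 + 1 / 2) * dist x x' := by
    intro x x' hle
    have hδ : 0 ≤ dist x x' := dist_nonneg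
    rcases le_or_gt T (ot_pot Γ e x) with hT1 | hT1
    · rw [min_eq_right hT1, min_eq_right (le_trans hT1 hle)]
      simp only [sub_self, abs_zero]
      exact mul_nonneg (le_trans hT (le_max_left _ _)) hδ
    · obtain ⟨p, hp, hlt⟩ := ot_pot_exists_lt hΓ x hT1
      have hep := he0 p hp
      have hd0 : 0 ≤ dist x p.2 := dist_nonneg
      have hdp : dist x p.2 ≤ Real.sqrt (2 * T) := by
        apply Real.le_sqrt_of_sq_le
        linarith
      have hD : ∀ y ∈ S1, dist x y ≤ Real.sqrt (2 * T) + D1 := by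
        intro y hy
        have := dist_triangle x p.2 y
        have := hD1 _ (hS1 _ hp) _ hy
        linarith
      rcases le_or_gt (dist x x') 1 with h1 | h1
      · have h2 := ot_pot_diff hΓ he0 hS1 hD x'
        have h3 : |min (ot_pot Γ e x') T - min (ot_pot Γ e x) T|
            ≤ |ot_pot Γ e x' - ot_pot Γ e x| := by
          have := abs_min_sub_min_le_max (ot_pot Γ e x') T (ot_pot Γ e x) T
          simpa using this
        have h4 : dist x x' * (2 * (Real.sqrt (2 * T) + D1) + dist x x') / 2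
            ≤ (Real.sqrt (2 * T) + D1 + 1 / 2) * dist x x' := by nlinarith
        have h5 : (Real.sqrt (2 * T) + D1 + 1 / 2) * dist x x'
            ≤ max T (Real.sqrt (2 * T) + D1 + 1 / 2) * dist x x' :=
          mul_le_mul_of_nonneg_right (le_max_right _ _) hδ
        linarith
      · have a1 : 0 ≤ min (ot_pot Γ e x') T := le_min (ot_pot_nonneg he0 x') hT
        have a2 : 0 ≤ min (ot_pot Γ e x) T := le_min (ot_pot_nonneg he0 x) hT
        have a3 : min (ot_pot Γ e x') T ≤ T := min_le_right _ _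
        have a4 : min (ot_pot Γ e x) T ≤ T := min_le_right _ _
        have h3 : |min (ot_pot Γ e x') T - min (ot_pot Γ e x) T| ≤ T := by
          rw [abs_le]; constructor <;> linarith
        have h4 : T ≤ T * dist x x' := by nlinarith
        have h5 : T * dist x x' ≤ max T (Real.sqrt (2 * T) + D1 + 1 / 2) * dist x x' :=
          mul_le_mul_of_nonneg_right (le_max_left _ _) hδ
        linarith
  refine LipschitzWith.of_dist_le_mul fun x x' => ?_
  rw [hK, Real.dist_eq]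
  rcases le_total (ot_pot Γ e x) (ot_pot Γ e x') with h | h
  · rw [abs_sub_comm]
    exact key x x' h
  · have := key x' x h
    rwa [dist_comm x' x] at this

/-- if `e` is a potential of the graph on `Γ` then the infimum defining `ot_pot` at `p.1` is attained at `p` -/
theorem ot_pot_key (he0 : ∀ p ∈ Γ, 0 ≤ e p)
    (hpot : ∀ p ∈ Γ, ∀ p' ∈ Γ, e p ≤ e p' + (dist p.1 p'.2 ^ 2 / 2 - dist p.1 p.2 ^ 2 / 2))
    {p : X × X} (hp : p ∈ Γ) (x : X) :
    ot_pot Γ e x ≤ ot_pot Γ e p.1 + dist x p.2 ^ 2 / 2 - dist p.1 p.2 ^ 2 / 2 := by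
  haveI : Nonempty Γ := ⟨⟨p, hp⟩⟩
  have h1 : dist p.1 p.2 ^ 2 / 2 + e p ≤ ot_pot Γ e p.1 := by
    refine le_ciInf fun p' => ?_
    have := hpot p hp p' p'.2
    linarith
  have h2 := ot_pot_le_of_mem he0 hp x
  linarith

end Claimed.Agent.R210.OT.Pot
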