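/-
Row 210 (S0432), layer OT (optimal transport), architect helper578.   OT4: existence of Kantorovich pairs on compact supports.
Master plan: `git show origin/helper928:docs/R210_master.md`; map of the layer: header of `R210/OT/Ifc.lean`.
-/
import Claimed.Agent.R210.OT.Dual
import Claimed.Agent.R210.OT.Graph
import Claimed.Agent.R210.OT.CM
import Claimed.Agent.R210.OT.Pot
import Claimed.Agent.R210.OT.HLip

set_option autoImplicit false

open Claims.C0366 Claims.C0366.WeakHessian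
open Set Filter MeasureTheory
open scoped ENNReal NNReal Topology BoundedContinuousFunction
open Claimed.Agent.R210.Defs Claimed.Agent.R210.OT.Defs

namespace Claimed.Agent.R210.OT.KPair

open Claimed.Agent.R210.OT.Weak Claimed.Agent.R210.OT.Basic Claimed.Agent.R210.OT.Exist Claimed.Agent.R210.OT.Dual Claimed.Agent.R210.OT.Graph Claimed.Agent.R210.OT.CM Claimed.Agent.R210.OT.Pot Claimed.Agent.R210.OT.HLip

variable {X : Type*} [MetricSpace X] [MeasurableSpace X] [BorelSpace X] [CompleteSpace X]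
  [TopologicalSpace.SeparableSpace X]

/-- cyclic shift of a finite sum -/
theorem ot_sum_shift (f : ℕ → ℝ) (n : ℕ) (h : f n = f 0) :
    ∑ i ∈ Finset.range n, f (i + 1) = ∑ i ∈ Finset.range n, f i := by
  have h1 := Finset.sum_range_succ f n
  have h2 := Finset.sum_range_succ' f n
  linarith

omit [MeasurableSpace X] [BorelSpace X] [CompleteSpace X] [TopologicalSpace.SeparableSpace X] in
/-- the measure-free part of OT4: a set of pairs `Γ ⊆ S0 × S1` without negative cycles carries a potential -/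
theorem ot_exists_pot {Γ : Set (X × X)} (hΓ : Γ.Nonempty) {S0 S1 : Set X} (hsub : Γ ⊆ S0 ×ˢ S1) {C : ℝ}
    (hC : ∀ x ∈ S0, ∀ y ∈ S1, dist x y ≤ C)
    (hcm : ∀ (n : ℕ) (p : ℕ → X × X), (∀ i, p i ∈ Γ) → p n = p 0 →
      ∑ i ∈ Finset.range n, dist (p i).1 (p i).2 ^ 2 ≤ ∑ i ∈ Finset.range n, dist (p (i + 1)).1 (p i).2 ^ 2) :
    ∃ e : X × X → ℝ, (∀ p ∈ Γ, 0 ≤ e p) ∧ (∀ ε > 0, ∃ p ∈ Γ, e p < ε) ∧
      ∀ p ∈ Γ, ∀ p' ∈ Γ, e p ≤ e p' + (dist p.1 p'.2 ^ 2 / 2 - dist p.1 p.2 ^ 2 / 2) := by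
  classical
  have : Nonempty Γ := hΓ.to_subtype
  have hsq : ∀ x ∈ S0, ∀ y ∈ S1, dist x y ^ 2 / 2 ≤ C ^ 2 / 2 := by
    intro x hx y hy
    have h1 := hC x hx y hy
    have h2 : 0 ≤ dist x y := dist_nonneg
    nlinarith
  obtain ⟨e0, he1, he2, he3⟩ := ot_graph_potential (V := Γ)
    (fun u v => dist (v : X × X).1 (u : X × X).2 ^ 2 / 2 - dist (v : X × X).1 (v : X × X).2 ^ 2 / 2)
    (C := C ^ 2 / 2) (by
      intro u v
      have h1 := hsq _ (hsub v.2).1 _ (hsub u.2).2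
      have h2 := hsq _ (hsub v.2).1 _ (hsub v.2).2
      have h3 : 0 ≤ dist (v : X × X).1 (u : X × X).2 ^ 2 / 2 := by positivity
      have h4 : 0 ≤ dist (v : X × X).1 (v : X × X).2 ^ 2 / 2 := by positivity
      rw [abs_le]; constructor <;> linarith) (by
      intro n v hv
      have h1 := hcm n (fun i => (v i : X × X)) (fun i => (v i).2) (by simp [hv])
      have h2 := ot_sum_shift (fun i => dist (v i : X × X).1 (v i : X × X).2 ^ 2) n (by simp [hv])
      rw [Finset.sum_sub_distrib, ← Finset.sum_div, ← Finset.sum_div, h2]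
      linarith)
  refine ⟨fun p => if h : p ∈ Γ then e0 ⟨p, h⟩ else 0, ?_, ?_, ?_⟩
  · intro p hp
    simp only [hp, dif_pos]
    exact he2 _
  · intro ε hε
    obtain ⟨v, hv⟩ := he3 ε hε
    exact ⟨v, v.2, by simpa using hv⟩
  · intro p hp p' hp'
    simp only [hp, hp', dif_pos]
    exact he1 ⟨p', hp'⟩ ⟨p, hp⟩

omit [MeasurableSpace X] [BorelSpace X] [CompleteSpace X] [TopologicalSpace.SeparableSpace X] in
/-- lower bound of the potential far from the target set -/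
theorem ot_pot_ge {Γ : Set (X × X)} {e : X × X → ℝ} {S1 : Set X} (hΓ : Γ.Nonempty) (he0 : ∀ p ∈ Γ, 0 ≤ e p)
    (hS1 : ∀ p ∈ Γ, p.2 ∈ S1) {x : X} {r : ℝ} (hr0 : 0 ≤ r) (hr : ∀ y ∈ S1, r ≤ dist x y) :
    r ^ 2 / 2 ≤ ot_pot Γ e x := by
  have := hΓ.to_subtype
  unfold ot_pot
  refine le_ciInf fun p => ?_
  have h1 := hr _ (hS1 p p.2)
  have h2 := he0 p p.2
  nlinarith

/-- two-point Lipschitz estimate of the potential -/
theorem ot_pot_dist_le {Γ : Set (X × X)} {e : X × X → ℝ} {S1 : Set X} (hΓ : Γ.Nonempty) (he0 : ∀ p ∈ Γ, 0 ≤ e p)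
    (hS1 : ∀ p ∈ Γ, p.2 ∈ S1) {z z' : X} {D : ℝ} (hD : ∀ y ∈ S1, dist z y ≤ D ∧ dist z' y ≤ D) :
    |ot_pot Γ e z - ot_pot Γ e z'| ≤ D * dist z z' := by
  have main : ∀ {z z' : X}, (∀ y ∈ S1, dist z y ≤ D ∧ dist z' y ≤ D) →
      ot_pot Γ e z ≤ ot_pot Γ e z' + D * dist z z' := by
    intro z z' hD
    refine le_of_forall_pos_le_add fun ε hε => ?_
    obtain ⟨p, hp, hlt⟩ := ot_pot_exists_lt hΓ z' (t := ot_pot Γ e z' + ε) (by linarith)
    have h1 := ot_pot_le_of_mem he0 hp z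
    obtain ⟨d1, d2⟩ := hD _ (hS1 p hp)
    have t1 : dist z p.2 ≤ dist z z' + dist z' p.2 := dist_triangle _ _ _
    have n1 : 0 ≤ dist z p.2 := dist_nonneg
    have n2 : 0 ≤ dist z' p.2 := dist_nonneg
    have n3 : 0 ≤ dist z z' := dist_nonneg
    have key : dist z p.2 ^ 2 / 2 - dist z' p.2 ^ 2 / 2 ≤ D * dist z z' := by
      have e1 : dist z p.2 ^ 2 / 2 - dist z' p.2 ^ 2 / 2 =
          (dist z p.2 - dist z' p.2) * ((dist z p.2 + dist z' p.2) / 2) := by ring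
      rw [e1]
      have f1 : dist z p.2 - dist z' p.2 ≤ dist z z' := by linarith
      have f2 : (dist z p.2 + dist z' p.2) / 2 ≤ D := by linarith
      have f3 : 0 ≤ (dist z p.2 + dist z' p.2) / 2 := by positivity
      calc (dist z p.2 - dist z' p.2) * ((dist z p.2 + dist z' p.2) / 2)
          ≤ dist z z' * ((dist z p.2 + dist z' p.2) / 2) := mul_le_mul_of_nonneg_right f1 f3
        _ ≤ dist z z' * D := mul_le_mul_of_nonneg_left f2 n3
        _ = D * dist z z' := mul_comm _ _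
    linarith
  rw [abs_le]
  have h1 := main hD
  have h2 := main (z := z') (z' := z) fun y hy => ⟨(hD y hy).2, (hD y hy).1⟩
  rw [dist_comm z' z] at h2
  constructor <;> linarith

/-- bounds and Lipschitz constants of the truncated potential and of its conjugate -/
theorem ot_pot_part {Γ : Set (X × X)} {e : X × X → ℝ} {S1 : Set X} (hΓ : Γ.Nonempty) (he0 : ∀ p ∈ Γ, 0 ≤ e p)
    (hS1 : ∀ p ∈ Γ, p.2 ∈ S1) {T D1 : ℝ} (hT : 0 ≤ T) (hD1 : ∀ y ∈ S1, ∀ y' ∈ S1, dist y y' ≤ D1) :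
    LipschitzWith (ot_lipConst T D1) (fun x => min (ot_pot Γ e x) T) ∧
      LipschitzWith (ot_lipConst T D1) (hopfLax 1 (fun x => - min (ot_pot Γ e x) T)) ∧
      ∀ y, -T ≤ hopfLax 1 (fun x => - min (ot_pot Γ e x) T) y ∧
        hopfLax 1 (fun x => - min (ot_pot Γ e x) T) y ≤ 0 := by
  have hnn := ot_pot_nonneg (Γ := Γ) (e := e) he0
  have hu1 : ∀ x, -T ≤ - min (ot_pot Γ e x) T := by
    intro x
    have := min_le_right (ot_pot Γ e x) T
    linarith
  have hu2 : ∀ x, - min (ot_pot Γ e x) T ≤ 0 := by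
    intro x
    have := le_min (hnn x) hT
    linarith
  have hD1' : 0 ≤ D1 := by
    obtain ⟨p, hp⟩ := hΓ
    simpa using hD1 _ (hS1 p hp) _ (hS1 p hp)
  refine ⟨ot_pot_lipschitz hΓ he0 hS1 hT hD1, ot_hopfLax_lipschitz _ hD1' hu1 hu2, ?_⟩
  intro y
  refine ⟨ot_hopfLax_ge _ hu1 y, ?_⟩
  have := ot_hopfLax_le _ hu1 y y
  simp only [dist_self] at this
  have h2 := hu2 y
  linarith

/-- **OT4**, structural form: the Kantorovich potential is `ot_pot Γ e` (`OT/Pot.lean`), i.e.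
`φ x = inf_{p ∈ Γ} (d(x,p.2)²/2 + e p)` with `e ≥ 0`, `inf e = 0`, `p.2 ∈ S1`.
All the elementary properties of `φ` follow from the lemmas `ot_pot_*`. -/
theorem ot_exists_kpair_pot (μ ν : Measure X) [IsProbabilityMeasure μ] [IsProbabilityMeasure ν]
    {S0 S1 : Set X} (hS0 : IsCompact S0) (hS1 : IsCompact S1) (h0 : μ S0ᶜ = 0) (h1 : ν S1ᶜ = 0) :
    ∃ (Γ : Set (X × X)) (e : X × X → ℝ), Γ.Nonempty ∧ (∀ p ∈ Γ, 0 ≤ e p) ∧ (∀ ε > 0, ∃ p ∈ Γ, e p < ε) ∧
      (∀ p ∈ Γ, p.2 ∈ S1) ∧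
      ∀ T, (∀ x ∈ S0, ot_pot Γ e x ≤ T) →
        KPair μ ν (fun x => min (ot_pot Γ e x) T) (hopfLax 1 (fun x => - min (ot_pot Γ e x) T)) := by
  classical
  obtain ⟨q, hq⟩ := ot_exists_optimal μ ν
  have : IsProbabilityMeasure q := ot_coupling_prob hq.1
  have hconc : q (S0 ×ˢ S1)ᶜ = 0 :=
    ot_coupling_conc hq.1 hS0.measurableSet hS1.measurableSet h0 h1
  have hsub : q.support ⊆ S0 ×ˢ S1 :=
    Measure.support_subset_of_isClosed (hS0.prod hS1).isClosed (mem_ae_iff.2 hconc)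
  have hfull : q q.supportᶜ = 0 := Measure.measure_compl_support
  have hne : q.support.Nonempty := by
    by_contra hcon
    rw [Set.not_nonempty_iff_eq_empty] at hcon
    rw [hcon, Set.compl_empty, measure_univ] at hfull
    exact one_ne_zero hfull
  obtain ⟨C, hC⟩ : ∃ C : ℝ, ∀ x ∈ S0, ∀ y ∈ S1, dist x y ≤ C := by
    obtain ⟨C, hC⟩ := Metric.isBounded_iff.1 (hS0.union hS1).isBounded
    exact ⟨C, fun x hx y hy => hC (Or.inl hx) (Or.inr hy)⟩
  have hfin : QuadraticTransportCost q ≠ ∞ := by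
    have hle : QuadraticTransportCost q ≤ ∫⁻ _p, ENNReal.ofReal C ^ 2 ∂q := by
      unfold QuadraticTransportCost
      refine lintegral_mono_ae ?_
      have : ∀ᵐ p ∂q, p ∈ S0 ×ˢ S1 := mem_ae_iff.2 hconc
      filter_upwards [this] with p hp
      rw [edist_dist]
      gcongr
      exact hC _ hp.1 _ hp.2
    rw [lintegral_const, measure_univ, mul_one] at hle
    exact ne_top_of_le_ne_top (by simp) hle
  obtain ⟨e, he0, heps, hpot⟩ := ot_exists_pot hne hsub hC (fun n p hp hc => ot_cm hq hfin n p hp hc)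
  have hS1' : ∀ p ∈ q.support, p.2 ∈ S1 := fun p hp => (hsub hp).2
  have hnn := ot_pot_nonneg (Γ := q.support) (e := e) he0
  refine ⟨q.support, e, hne, he0, heps, hS1', ?_⟩
  intro T hT
  have hT0 : 0 ≤ T := by
    obtain ⟨p, hp⟩ := hne
    exact (hnn p.1).trans (hT _ (hsub hp).1)
  have hu1 : ∀ x, -T ≤ - min (ot_pot q.support e x) T := by
    intro x
    have := min_le_right (ot_pot q.support e x) T
    linarith
  obtain ⟨D1, hD1⟩ : ∃ D1 : ℝ, ∀ y ∈ S1, ∀ y' ∈ S1, dist y y' ≤ D1 := by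
    obtain ⟨C', hC'⟩ := Metric.isBounded_iff.1 hS1.isBounded
    exact ⟨C', fun y hy y' hy' => hC' hy hy'⟩
  obtain ⟨hl1, hl2, hb⟩ := ot_pot_part hne he0 hS1' hT0 hD1
  refine ⟨⟨_, hl1⟩, ⟨_, hl2⟩, ⟨T, ?_⟩, ⟨T, ?_⟩, ?_, q, hq, ?_⟩
  · intro x
    rw [abs_le]
    exact ⟨by have := le_min (hnn x) hT0; linarith, min_le_right _ _⟩
  · intro y
    rw [abs_le]
    exact ⟨(hb y).1, (hb y).2.trans hT0⟩
  · intro x y
    have := ot_hopfLax_le _ hu1 x y
    linarith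
  · have hae : ∀ᵐ p ∂q, p ∈ q.support := mem_ae_iff.2 hfull
    filter_upwards [hae] with p hp
    apply le_antisymm
    · have := ot_hopfLax_le _ hu1 p.1 p.2
      linarith
    · have hmin : min (ot_pot q.support e p.1) T = ot_pot q.support e p.1 := min_eq_left (hT _ (hsub hp).1)
      have hge : dist p.1 p.2 ^ 2 / 2 - ot_pot q.support e p.1 ≤
          hopfLax 1 (fun x => - min (ot_pot q.support e x) T) p.2 := by
        apply ot_le_hopfLax
        intro x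
        have h1 := ot_pot_key he0 hpot hp x
        have h2 := min_le_left (ot_pot q.support e x) T
        linarith
      simp only [hmin]
      linarith

/-- **OT4**, full form.  `φ` is the Kantorovich potential (normalised by `0 ≤ φ`), `min φ T` its truncation;
the conjugate potential is `hopfLax 1 (-(min φ T))`.  Third clause: `T - min φ T` vanishes far from `S1`. -/
theorem ot_exists_kpair_full (μ ν : Measure X) [IsProbabilityMeasure μ] [IsProbabilityMeasure ν]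
    {S0 S1 : Set X} (hS0 : IsCompact S0) (hS1 : IsCompact S1) (h0 : μ S0ᶜ = 0) (h1 : ν S1ᶜ = 0) :
    ∃ φ : X → ℝ, (∀ x, 0 ≤ φ x) ∧
      (∀ x D, (∀ y ∈ S1, dist x y ≤ D) → φ x ≤ D ^ 2 / 2) ∧
      (∀ x r, 0 ≤ r → (∀ y ∈ S1, r ≤ dist x y) → r ^ 2 / 2 ≤ φ x) ∧
      (∀ T x D, (∀ y ∈ S1, dist x y ≤ D) → localSlope (fun x => min (φ x) T) x ≤ ENNReal.ofReal D) ∧
      (∀ T D1, 0 ≤ T → (∀ y ∈ S1, ∀ y' ∈ S1, dist y y' ≤ D1) →
        LipschitzWith (ot_lipConst T D1) (fun x => min (φ x) T) ∧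
        LipschitzWith (ot_lipConst T D1) (hopfLax 1 (fun x => - min (φ x) T)) ∧
        ∀ y, -T ≤ hopfLax 1 (fun x => - min (φ x) T) y ∧ hopfLax 1 (fun x => - min (φ x) T) y ≤ 0) ∧
      ∀ T, (∀ x ∈ S0, φ x ≤ T) → KPair μ ν (fun x => min (φ x) T) (hopfLax 1 (fun x => - min (φ x) T)) := by
  obtain ⟨Γ, e, hne, he0, heps, hS1', hk⟩ := ot_exists_kpair_pot μ ν hS0 hS1 h0 h1
  exact ⟨ot_pot Γ e, ot_pot_nonneg he0, fun x D hD => ot_pot_le he0 heps hS1' hD,
    fun x r hr0 hr => ot_pot_ge hne he0 hS1' hr0 hr,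
    fun T x D hD => ot_pot_slope hne he0 hS1' T hD,
    fun T D1 hT hD1 => ot_pot_part hne he0 hS1' hT hD1, hk⟩

/-- **OT4**.  `φ` is the Kantorovich potential (normalised by `0 ≤ φ`), `min φ T` its truncation;
the conjugate potential is `hopfLax 1 (-(min φ T))`. -/
theorem ot_exists_kpair (μ ν : Measure X) [IsProbabilityMeasure μ] [IsProbabilityMeasure ν]
    {S0 S1 : Set X} (hS0 : IsCompact S0) (hS1 : IsCompact S1) (h0 : μ S0ᶜ = 0) (h1 : ν S1ᶜ = 0) :
    ∃ φ : X → ℝ, (∀ x, 0 ≤ φ x) ∧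
      (∀ x D, (∀ y ∈ S1, dist x y ≤ D) → φ x ≤ D ^ 2 / 2) ∧
      (∀ T x D, (∀ y ∈ S1, dist x y ≤ D) → localSlope (fun x => min (φ x) T) x ≤ ENNReal.ofReal D) ∧
      (∀ T D1, 0 ≤ T → (∀ y ∈ S1, ∀ y' ∈ S1, dist y y' ≤ D1) →
        LipschitzWith (ot_lipConst T D1) (fun x => min (φ x) T) ∧
        LipschitzWith (ot_lipConst T D1) (hopfLax 1 (fun x => - min (φ x) T)) ∧
        ∀ y, -T ≤ hopfLax 1 (fun x => - min (φ x) T) y ∧ hopfLax 1 (fun x => - min (φ x) T) y ≤ 0) ∧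
      ∀ T, (∀ x ∈ S0, φ x ≤ T) → KPair μ ν (fun x => min (φ x) T) (hopfLax 1 (fun x => - min (φ x) T)) := by
  obtain ⟨φ, c1, c2, -, c4, c5, c6⟩ := ot_exists_kpair_full μ ν hS0 hS1 h0 h1
  exact ⟨φ, c1, c2, c4, c5, c6⟩

end Claimed.Agent.R210.OT.KPair
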