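/-
Row 210 (S0432), layer OT (optimal transport), architect helper578.   OT9: stability of Kantorovich pairs.
Master plan: `git show origin/helper928:docs/R210_master.md`; map of the layer: header of `R210/OT/Ifc.lean`.
-/
import Claimed.Agent.R210.OT.Lsc
import Claimed.Agent.R210.OT.Dual
import Claimed.Agent.R210.OT.AA

set_option autoImplicit false

open Claims.C0366 Claims.C0366.WeakHessian
open Set Filter MeasureTheory
open scoped ENNReal NNReal Topology BoundedContinuousFunction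
open Claimed.Agent.R210.Defs Claimed.Agent.R210.OT.Defs

namespace Claimed.Agent.R210.OT.Stab

open Claimed.Agent.R210.OT.Weak Claimed.Agent.R210.OT.Basic Claimed.Agent.R210.OT.Exist Claimed.Agent.R210.OT.Dual Claimed.Agent.R210.OT.Lsc Claimed.Agent.R210.OT.AA

variable {X : Type*} [MetricSpace X] [MeasurableSpace X] [BorelSpace X] [CompleteSpace X]
  [TopologicalSpace.SeparableSpace X]

/-- **OT9** (no properness needed). The last clause: the transport costs converge along the subsequence. -/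
theorem ot_kpair_stable {μs νs : ℕ → Measure X} {μ ν : Measure X}
    (hμs : ∀ n, IsProbabilityMeasure (μs n)) (hνs : ∀ n, IsProbabilityMeasure (νs n))
    (hμ : IsProbabilityMeasure μ) (hν : IsProbabilityMeasure ν) (h1 : ot_WConv μs μ) (h2 : ot_WConv νs ν)
    {K : Set X} (hK : IsCompact K) (h3 : ∀ n, μs n Kᶜ = 0) (h4 : ∀ n, νs n Kᶜ = 0)
    {as bs : ℕ → X → ℝ} (hk : ∀ n, KPair (μs n) (νs n) (as n) (bs n)) {L : ℝ≥0} {B : ℝ}
    (hLa : ∀ n, LipschitzWith L (as n)) (hLb : ∀ n, LipschitzWith L (bs n))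
    (hBa : ∀ n x, |as n x| ≤ B) (hBb : ∀ n x, |bs n x| ≤ B) :
    ∃ (φ : ℕ → ℕ) (a b : X → ℝ), StrictMono φ ∧ KPair μ ν a b ∧ LipschitzWith L a ∧ LipschitzWith L b ∧
      (∀ x, |a x| ≤ B) ∧ (∀ x, |b x| ≤ B) ∧
      TendstoLocallyUniformly (fun n => as (φ n)) a atTop ∧ TendstoLocallyUniformly (fun n => bs (φ n)) b atTop ∧
      Tendsto (fun n => W2sq (μs (φ n)) (νs (φ n))) atTop (𝓝 (W2sq μ ν)) := by
  obtain ⟨φ1, a, hφ1, hLa', hBa', hua⟩ := ot_aa hLa hBa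
  obtain ⟨φ2, b, hφ2, hLb', hBb', hub⟩ :=
    ot_aa (fs := fun n => bs (φ1 n)) (fun n => hLb _) (fun n x => hBb _ x)
  have hφ : StrictMono (φ1 ∘ φ2) := hφ1.comp hφ2
  have hua' : TendstoLocallyUniformly (fun n => as ((φ1 ∘ φ2) n)) a atTop := by
    intro u hu x
    obtain ⟨t, ht, hev⟩ := hua u hu x
    exact ⟨t, ht, hφ2.tendsto_atTop.eventually hev⟩
  have hub' : TendstoLocallyUniformly (fun n => bs ((φ1 ∘ φ2) n)) b atTop := hub
  have hle : ∀ x y, a x + b y ≤ dist x y ^ 2 / 2 := fun x y =>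
    le_of_tendsto' (((hua'.tendstoLocallyUniformlyOn (s := univ)).tendsto_at (mem_univ x)).add
      ((hub'.tendstoLocallyUniformlyOn (s := univ)).tendsto_at (mem_univ y)))
      (fun n => (hk ((φ1 ∘ φ2) n)).le x y)
  set v : ℕ → ℝ := fun n => ∫ x, as ((φ1 ∘ φ2) n) x ∂(μs ((φ1 ∘ φ2) n)) +
    ∫ y, bs ((φ1 ∘ φ2) n) y ∂(νs ((φ1 ∘ φ2) n)) with hv
  set v0 : ℝ := ∫ x, a x ∂μ + ∫ y, b y ∂ν with hv0
  have hvlim : Tendsto v atTop (𝓝 v0) := by
    have ha := ot_integral_tendsto_of_unif (μs := μs ∘ (φ1 ∘ φ2)) (fun n => hμs _) hμ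
      (ot_wconv_subseq h1 hφ) hK (fun n => h3 _) (fs := fun n => as ((φ1 ∘ φ2) n))
      (fun n => (hLa _).continuous) hua'
    have hb := ot_integral_tendsto_of_unif (μs := νs ∘ (φ1 ∘ φ2)) (fun n => hνs _) hν
      (ot_wconv_subseq h2 hφ) hK (fun n => h4 _) (fs := fun n => bs ((φ1 ∘ φ2) n))
      (fun n => (hLb _).continuous) hub'
    exact ha.add hb
  have hveq : ∀ n, v n = W2sqR (μs ((φ1 ∘ φ2) n)) (νs ((φ1 ∘ φ2) n)) / 2 := by
    intro n
    have := hμs ((φ1 ∘ φ2) n)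
    have := hνs ((φ1 ∘ φ2) n)
    exact ot_kpair_eq (hk ((φ1 ∘ φ2) n))
  have hW : ∀ n, W2sq (μs ((φ1 ∘ φ2) n)) (νs ((φ1 ∘ φ2) n)) = ENNReal.ofReal (2 * v n) := by
    intro n
    have := hμs ((φ1 ∘ φ2) n)
    have := hνs ((φ1 ∘ φ2) n)
    have hfin := ot_kpair_finite (hk ((φ1 ∘ φ2) n))
    rw [hveq n, W2sqR, mul_div_cancel₀ _ (two_ne_zero), ENNReal.ofReal_toReal hfin]
  have hv0nn : 0 ≤ v0 := ge_of_tendsto' hvlim (fun n => by
    rw [hveq n]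
    have : 0 ≤ W2sqR (μs ((φ1 ∘ φ2) n)) (νs ((φ1 ∘ φ2) n)) := ENNReal.toReal_nonneg
    positivity)
  have hWlim : Tendsto (fun n => W2sq (μs ((φ1 ∘ φ2) n)) (νs ((φ1 ∘ φ2) n))) atTop
      (𝓝 (ENNReal.ofReal (2 * v0))) := by
    simp only [hW]
    exact ENNReal.tendsto_ofReal (hvlim.const_mul 2)
  have hlsc : W2sq μ ν ≤ ENNReal.ofReal (2 * v0) := by
    have h := ot_lsc (μs := μs ∘ (φ1 ∘ φ2)) (νs := νs ∘ (φ1 ∘ φ2)) (fun n => hμs _) (fun n => hνs _) hμ hν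
      (ot_wconv_subseq h1 hφ) (ot_wconv_subseq h2 hφ)
    have h' : liminf (fun n => W2sq ((μs ∘ (φ1 ∘ φ2)) n) ((νs ∘ (φ1 ∘ φ2)) n)) atTop
        = ENNReal.ofReal (2 * v0) := hWlim.liminf_eq
    rwa [h'] at h
  have hfin : W2sq μ ν ≠ ∞ := (lt_of_le_of_lt hlsc ENNReal.ofReal_lt_top).ne
  have hge : W2sqR μ ν / 2 ≤ v0 := by
    have h := ENNReal.toReal_mono ENNReal.ofReal_ne_top hlsc
    rw [ENNReal.toReal_ofReal (by positivity)] at h
    have : W2sqR μ ν = (W2sq μ ν).toReal := rfl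
    linarith
  have hkp : KPair μ ν a b :=
    ot_kpair_of_eq hfin ⟨⟨L, hLa'⟩, ⟨B, hBa'⟩⟩ ⟨⟨L, hLb'⟩, ⟨B, hBb'⟩⟩ hle hge
  have hfinal : ENNReal.ofReal (2 * v0) = W2sq μ ν := by
    have h : v0 = W2sqR μ ν / 2 := ot_kpair_eq hkp
    rw [h, W2sqR, mul_div_cancel₀ _ (two_ne_zero), ENNReal.ofReal_toReal hfin]
  refine ⟨φ1 ∘ φ2, a, b, hφ, hkp, hLa', hLb', hBa', hBb', hua', hub', ?_⟩
  rw [← hfinal]
  exact hWlim

end Claimed.Agent.R210.OT.Stab
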