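/-
Row 210 (S0432), layer OT (optimal transport), architect helper578.   OT6: continuity of `W2sq` on a compact set, limits of optimal couplings.
Master plan: `git show origin/helper928:docs/R210_master.md`; map of the layer: header of `R210/OT/Ifc.lean`.
-/
import Claimed.Agent.R210.OT.Stab
import Claimed.Agent.R210.OT.KPair

set_option autoImplicit false

open Claims.C0366 Claims.C0366.WeakHessian
open Set Filter MeasureTheory
open scoped ENNReal NNReal Topology BoundedContinuousFunction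
open Claimed.Agent.R210.Defs Claimed.Agent.R210.OT.Defs

namespace Claimed.Agent.R210.OT.Cont

open Claimed.Agent.R210.OT.Weak Claimed.Agent.R210.OT.Basic Claimed.Agent.R210.OT.Exist Claimed.Agent.R210.OT.Dual Claimed.Agent.R210.OT.KPair Claimed.Agent.R210.OT.Lsc Claimed.Agent.R210.OT.AA Claimed.Agent.R210.OT.Stab

variable {X : Type*} [MetricSpace X] [MeasurableSpace X] [BorelSpace X] [CompleteSpace X]
  [TopologicalSpace.SeparableSpace X]

theorem ot_continuous_of_compact {μs νs : ℕ → Measure X} {μ ν : Measure X}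
    (hμs : ∀ n, IsProbabilityMeasure (μs n)) (hνs : ∀ n, IsProbabilityMeasure (νs n))
    (hμ : IsProbabilityMeasure μ) (hν : IsProbabilityMeasure ν) (h1 : ot_WConv μs μ) (h2 : ot_WConv νs ν)
    {K : Set X} (hK : IsCompact K) (h3 : ∀ n, μs n Kᶜ = 0) (h4 : ∀ n, νs n Kᶜ = 0) :
    Tendsto (fun n => W2sq (μs n) (νs n)) atTop (𝓝 (W2sq μ ν)) := by
  apply tendsto_of_subseq_tendsto
  intro ns hns
  obtain ⟨φ, hφ, hnsφ⟩ := strictMono_subseq_of_tendsto_atTop hns
  set D1 : ℝ := Metric.diam K with hD1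
  set T : ℝ := D1 ^ 2 / 2 with hT
  have hT0 : 0 ≤ T := by positivity
  have hdiam : ∀ y ∈ K, ∀ y' ∈ K, dist y y' ≤ D1 := fun y hy y' hy' =>
    Metric.dist_le_diam_of_mem hK.isBounded hy hy'
  have hex : ∀ n, ∃ a b : X → ℝ, KPair (μs (ns (φ n))) (νs (ns (φ n))) a b ∧
      LipschitzWith (ot_lipConst T D1) a ∧ LipschitzWith (ot_lipConst T D1) b ∧
      (∀ x, |a x| ≤ T) ∧ (∀ x, |b x| ≤ T) := by
    intro n
    have := hμs (ns (φ n))
    have := hνs (ns (φ n))
    obtain ⟨p, hp0, hp1, -, hp3, hp4⟩ :=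
      ot_exists_kpair (μs (ns (φ n))) (νs (ns (φ n))) hK hK (h3 _) (h4 _)
    obtain ⟨hl1, hl2, hb⟩ := hp3 T D1 hT0 hdiam
    refine ⟨fun x => min (p x) T, hopfLax 1 (fun x => - min (p x) T), hp4 T ?_, hl1, hl2, ?_, ?_⟩
    · intro x hx
      exact hp1 x D1 (fun y hy => hdiam x hx y hy)
    · intro x
      rw [abs_of_nonneg (le_min (hp0 x) hT0)]
      exact min_le_right _ _
    · intro y
      rw [abs_le]
      exact ⟨(hb y).1, le_trans (hb y).2 hT0⟩
  choose a b hk hLa hLb hBa hBb using hex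
  obtain ⟨ψ, -, -, -, -, -, -, -, -, -, -, hlim⟩ :=
    ot_kpair_stable (μs := μs ∘ (ns ∘ φ)) (νs := νs ∘ (ns ∘ φ)) (fun n => hμs _) (fun n => hνs _) hμ hν
      (ot_wconv_subseq h1 hnsφ) (ot_wconv_subseq h2 hnsφ) hK (fun n => h3 _) (fun n => h4 _)
      (as := a) (bs := b) hk hLa hLb hBa hBb
  exact ⟨φ ∘ ψ, hlim⟩

/-- weak limits of optimal couplings are optimal (all measures on one compact set) -/
theorem ot_optimal_limit {μs νs : ℕ → Measure X} {μ ν : Measure X}
    (hμs : ∀ n, IsProbabilityMeasure (μs n)) (hνs : ∀ n, IsProbabilityMeasure (νs n))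
    (hμ : IsProbabilityMeasure μ) (hν : IsProbabilityMeasure ν) (h1 : ot_WConv μs μ) (h2 : ot_WConv νs ν)
    {K : Set X} (hK : IsCompact K) (h3 : ∀ n, μs n Kᶜ = 0) (h4 : ∀ n, νs n Kᶜ = 0)
    {qs : ℕ → Measure (X × X)} (hq : ∀ n, IsOptimalCoupling (qs n) (μs n) (νs n)) :
    ∃ (q : Measure (X × X)) (φ : ℕ → ℕ), StrictMono φ ∧ ot_WConv (qs ∘ φ) q ∧ IsOptimalCoupling q μ ν := by
  obtain ⟨q, φ, hφ, hc, hcoup, hle⟩ := ot_coupling_subseq hμs hνs hμ hν h1 h2 (fun n => (hq n).1)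
  refine ⟨q, φ, hφ, hc, ot_optimal_of_cost_le hcoup ?_⟩
  have hlim : Tendsto (fun n => QuadraticTransportCost (qs (φ n))) atTop (𝓝 (W2sq μ ν)) := by
    have h := (ot_continuous_of_compact hμs hνs hμ hν h1 h2 hK h3 h4).comp hφ.tendsto_atTop
    refine h.congr fun n => ?_
    exact ot_W2sq_eq_cost (hq (φ n))
  rwa [hlim.liminf_eq] at hle

end Claimed.Agent.R210.OT.Cont
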