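/-
Row 210 (S0432), layer OT (optimal transport), architect helper578.   Corollaries in the forms asked for by the consumers (EV, FE, FO, KU).
Master plan: `git show origin/helper928:docs/R210_master.md`; map of the layer: header of `R210/OT/Ifc.lean`.
-/
import Claimed.Agent.R210.OT.Glue
import Claimed.Agent.R210.OT.Lsc
import Claimed.Agent.R210.OT.KPair

set_option autoImplicit false

open Claims.C0366 Claims.C0366.WeakHessian
open Set Filter MeasureTheory
open scoped ENNReal NNReal Topology BoundedContinuousFunction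
open Claimed.Agent.R210.Defs Claimed.Agent.R210.OT.Defs

namespace Claimed.Agent.R210.OT.Extra

open Claimed.Agent.R210.OT.Weak Claimed.Agent.R210.OT.Basic Claimed.Agent.R210.OT.Exist Claimed.Agent.R210.OT.Glue Claimed.Agent.R210.OT.Dual Claimed.Agent.R210.OT.Pot Claimed.Agent.R210.OT.HLip Claimed.Agent.R210.OT.KPair Claimed.Agent.R210.OT.Lsc

variable {X : Type*} [MetricSpace X] [MeasurableSpace X] [BorelSpace X] [CompleteSpace X]
  [TopologicalSpace.SeparableSpace X]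

/-- weak convergence, tested on plain bounded continuous functions -/
theorem ot_wconv_of_forall {μs : ℕ → Measure X} {μ : Measure X}
    (h : ∀ φ : X → ℝ, Continuous φ → BoundedFunction φ →
      Tendsto (fun n => ∫ x, φ x ∂(μs n)) atTop (𝓝 (∫ x, φ x ∂μ))) : ot_WConv μs μ := by
  intro f
  refine h f f.continuous ⟨‖f‖, fun x => ?_⟩
  simpa using f.norm_coe_le_norm x

/-- converse of `ot_wconv_of_forall` -/
theorem ot_wconv_apply {μs : ℕ → Measure X} {μ : Measure X} (h : ot_WConv μs μ) {φ : X → ℝ} (hc : Continuous φ)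
    (hb : BoundedFunction φ) : Tendsto (fun n => ∫ x, φ x ∂(μs n)) atTop (𝓝 (∫ x, φ x ∂μ)) := by
  obtain ⟨B, hB⟩ := hb
  exact h (BoundedContinuousFunction.ofNormedAddCommGroup φ hc B fun x => by simpa using hB x)

/-- OT6 (lower semicontinuity), weak convergence tested on plain functions -/
theorem ot_lsc' {μs νs : ℕ → Measure X} {μ ν : Measure X} (hμs : ∀ n, IsProbabilityMeasure (μs n))
    (hνs : ∀ n, IsProbabilityMeasure (νs n)) (hμ : IsProbabilityMeasure μ) (hν : IsProbabilityMeasure ν)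
    (h1 : ∀ φ : X → ℝ, Continuous φ → BoundedFunction φ →
      Tendsto (fun n => ∫ x, φ x ∂(μs n)) atTop (𝓝 (∫ x, φ x ∂μ)))
    (h2 : ∀ φ : X → ℝ, Continuous φ → BoundedFunction φ →
      Tendsto (fun n => ∫ x, φ x ∂(νs n)) atTop (𝓝 (∫ x, φ x ∂ν))) :
    W2sq μ ν ≤ liminf (fun n => W2sq (μs n) (νs n)) atTop :=
  ot_lsc hμs hνs hμ hν (ot_wconv_of_forall h1) (ot_wconv_of_forall h2)

/-- OT2 for measures with second moments -/
theorem ot_triangle_moment {μ ν σ : Measure X} (hμ : IsProbabilityMeasure μ) (hν : IsProbabilityMeasure ν)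
    (hσ : IsProbabilityMeasure σ) (h2μ : HasSecondMoment μ) (h2ν : HasSecondMoment ν) (h2σ : HasSecondMoment σ) :
    Real.sqrt (W2sqR μ σ) ≤ Real.sqrt (W2sqR μ ν) + Real.sqrt (W2sqR ν σ) :=
  (ot_triangle_real μ ν σ (ot_W2sq_lt_top h2μ h2ν).ne (ot_W2sq_lt_top h2ν h2σ).ne).2

/-- second moments of measures with bounded support -/
theorem ot_secondMoment_of_bddDens {m μ : Measure X} {M : ℝ≥0} {o : X} {R : ℝ} (h : BddDens m μ M o R) :
    HasSecondMoment μ :=
  haveI := h.prob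
  ot_secondMoment_of_conc Metric.isBounded_closedBall h.conc

/-- OT2 for bounded densities -/
theorem ot_triangle_bddDens {m μ₁ μ₂ μ₃ : Measure X} {M₁ M₂ M₃ : ℝ≥0} {o₁ o₂ o₃ : X} {R₁ R₂ R₃ : ℝ}
    (h1 : BddDens m μ₁ M₁ o₁ R₁) (h2 : BddDens m μ₂ M₂ o₂ R₂) (h3 : BddDens m μ₃ M₃ o₃ R₃) :
    Real.sqrt (W2sqR μ₁ μ₃) ≤ Real.sqrt (W2sqR μ₁ μ₂) + Real.sqrt (W2sqR μ₂ μ₃) :=
  ot_triangle_moment h1.prob h2.prob h3.prob (ot_secondMoment_of_bddDens h1) (ot_secondMoment_of_bddDens h2)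
    (ot_secondMoment_of_bddDens h3)

/-- OT5 (weak duality) for continuous functions and measures with second moments -/
theorem ot_weak_duality' {μ ν : Measure X} (hμ : IsProbabilityMeasure μ) (hν : IsProbabilityMeasure ν)
    (h2μ : HasSecondMoment μ) (h2ν : HasSecondMoment ν) {a b : X → ℝ} (ha : Continuous a) (hb : Continuous b)
    (hab : BoundedFunction a) (hbb : BoundedFunction b) (h : ∀ x y, a x + b y ≤ dist x y ^ 2 / 2) :
    ∫ x, a x ∂μ + ∫ y, b y ∂ν ≤ W2sqR μ ν / 2 :=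
  ot_weak_duality (ot_W2sq_lt_top h2μ h2ν).ne ha.measurable hb.measurable hab hbb h

/-- OT4, form of layer FE: on a prescribed bounded set `B` the first potential satisfies
`inf_{S₁} d²/2 ≤ a ≤ sup_{S₁} d²/2` and is `sup_{S₁} d`-Lipschitz. -/
theorem ot_kpair_struct {μ ν : Measure X} [IsProbabilityMeasure μ] [IsProbabilityMeasure ν] {S₀ S₁ B : Set X}
    (hS₀ : IsCompact S₀) (hS₁ : IsCompact S₁) (hμ : μ S₀ᶜ = 0) (hν : ν S₁ᶜ = 0)
    (hB : Bornology.IsBounded B) :
    ∃ a b : X → ℝ, KPair μ ν a b ∧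
      (∀ z ∈ B, ∀ D : ℝ, 0 ≤ D → (∀ y ∈ S₁, D ≤ dist z y) → D ^ 2 / 2 ≤ a z) ∧
      (∀ z ∈ B, ∀ D : ℝ, (∀ y ∈ S₁, dist z y ≤ D) → a z ≤ D ^ 2 / 2) ∧
      (∀ z ∈ B, ∀ z' ∈ B, ∀ D : ℝ, (∀ y ∈ S₁, dist z y ≤ D ∧ dist z' y ≤ D) →
        |a z - a z'| ≤ D * dist z z') := by
  obtain ⟨Γ, e, hne, he0, heps, hS1', hk⟩ := ot_exists_kpair_pot μ ν hS₀ hS₁ hμ hν
  -- a bound for the distances between `S₀ ∪ B` and `S₁`
  obtain ⟨C, hC⟩ := Metric.isBounded_iff.1 ((hS₀.isBounded.union hB).union hS₁.isBounded)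
  have hC1 : ∀ x ∈ S₀ ∪ B, ∀ y ∈ S₁, dist x y ≤ C := fun x hx y hy => hC (Or.inl hx) (Or.inr hy)
  have hpotC : ∀ x ∈ S₀ ∪ B, ot_pot Γ e x ≤ C ^ 2 / 2 := fun x hx => ot_pot_le he0 heps hS1' (hC1 x hx)
  refine ⟨_, _, hk (C ^ 2 / 2) (fun x hx => hpotC x (Or.inl hx)), ?_, ?_, ?_⟩
  · intro z hz D hD0 hD
    rw [min_eq_left (hpotC z (Or.inr hz))]
    exact ot_pot_ge hne he0 hS1' hD0 hD
  · intro z hz D hD
    rw [min_eq_left (hpotC z (Or.inr hz))]
    exact ot_pot_le he0 heps hS1' hD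
  · intro z hz z' hz' D hD
    rw [min_eq_left (hpotC z (Or.inr hz)), min_eq_left (hpotC z' (Or.inr hz'))]
    exact ot_pot_dist_le hne he0 hS1' hD

/-- OT4, plain existence for bounded densities (proper space) -/
theorem ot_kpair_bddDens [ProperSpace X] {m μ ν : Measure X} {M M' : ℝ≥0} {o o' : X} {R R' : ℝ}
    (hμ : BddDens m μ M o R) (hν : BddDens m ν M' o' R') : ∃ a b : X → ℝ, KPair μ ν a b := by
  haveI := hμ.prob
  haveI := hν.prob
  obtain ⟨a, b, h, -⟩ := ot_kpair_struct (B := ∅) (isCompact_closedBall o R) (isCompact_closedBall o' R')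
    hμ.conc hν.conc Bornology.isBounded_empty
  exact ⟨a, b, h⟩

/-- OT4, form of layer EV. -/
theorem ot_kpair_ball [ProperSpace X] {μ ν : Measure X} (hμ : IsProbabilityMeasure μ) (hν : IsProbabilityMeasure ν)
    {o : X} {R Rν : ℝ} (hμc : μ (Metric.closedBall o R)ᶜ = 0) (hνc : ν (Metric.closedBall o Rν)ᶜ = 0) :
    ∃ (a b : X → ℝ) (T : ℝ), KPair μ ν a b ∧ (∀ x, 0 ≤ a x) ∧ (∀ x, a x ≤ (dist x o + Rν) ^ 2 / 2) ∧
      (∀ x, localSlope a x ≤ ENNReal.ofReal (dist x o + Rν)) ∧ HasCompactSupport (fun x => a x - T) := by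
  obtain ⟨Γ, e, hne, he0, heps, hS1', hk⟩ := ot_exists_kpair_pot μ ν (isCompact_closedBall o R)
    (isCompact_closedBall o Rν) hμc hνc
  have hD : ∀ x, ∀ y ∈ Metric.closedBall o Rν, dist x y ≤ dist x o + Rν := by
    intro x y hy
    rw [Metric.mem_closedBall] at hy
    have := dist_triangle_right x y o
    linarith
  have hRν : 0 ≤ Rν := by
    obtain ⟨p, hp⟩ := hne
    have := hS1' p hp
    rw [Metric.mem_closedBall] at this
    exact dist_nonneg.trans this
  set r : ℝ := |R| + Rν with hr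
  have hr0 : 0 ≤ r := by positivity
  set T : ℝ := r ^ 2 / 2 with hT
  have hT0 : 0 ≤ T := by positivity
  have hS0 : ∀ x ∈ Metric.closedBall o R, ot_pot Γ e x ≤ T := by
    intro x hx
    rw [Metric.mem_closedBall] at hx
    have h1 := ot_pot_le he0 heps hS1' (hD x)
    have h2 : dist x o + Rν ≤ r := by
      have := le_abs_self R
      rw [hr]; linarith
    have h3 : 0 ≤ dist x o + Rν := by positivity
    rw [hT]
    nlinarith
  refine ⟨_, _, T, hk T hS0, fun x => le_min (ot_pot_nonneg he0 x) hT0,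
    fun x => (min_le_left _ _).trans (ot_pot_le he0 heps hS1' (hD x)),
    fun x => ot_pot_slope hne he0 hS1' T (hD x), ?_⟩
  refine HasCompactSupport.of_support_subset_isCompact (isCompact_closedBall o (r + Rν)) ?_
  intro x hx
  by_contra hcon
  rw [Metric.mem_closedBall, not_le] at hcon
  apply hx
  have h3 : r ^ 2 / 2 ≤ ot_pot Γ e x := by
    refine ot_pot_ge hne he0 hS1' hr0 fun y hy => ?_
    rw [Metric.mem_closedBall] at hy
    have := dist_triangle x y o
    linarith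
  simp only [sub_eq_zero]
  exact min_eq_right h3

end Claimed.Agent.R210.OT.Extra
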