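/-
Row 210 (S0432), layer OT (optimal transport), architect helper578.   OT8: strong duality for non compact supports.
Master plan: `git show origin/helper928:docs/R210_master.md`; map of the layer: header of `R210/OT/Ifc.lean`.
-/
import Claimed.Agent.R210.OT.Lsc
import Claimed.Agent.R210.OT.KPair

set_option autoImplicit false

open Claims.C0366 Claims.C0366.WeakHessian
open Set Filter MeasureTheory
open scoped ENNReal NNReal Topology BoundedContinuousFunction
open Claimed.Agent.R210.Defs Claimed.Agent.R210.OT.Defs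

namespace Claimed.Agent.R210.OT.Strong

open Claimed.Agent.R210.OT.Weak Claimed.Agent.R210.OT.Basic Claimed.Agent.R210.OT.Exist Claimed.Agent.R210.OT.Dual Claimed.Agent.R210.OT.HLip Claimed.Agent.R210.OT.KPair Claimed.Agent.R210.OT.Lsc

variable {X : Type*} [MetricSpace X] [MeasurableSpace X] [BorelSpace X] [CompleteSpace X]
  [TopologicalSpace.SeparableSpace X]


/-- normalised restriction of `μ` to a closed ball -/
noncomputable def ot_cut (μ : Measure X) (o : X) (R : ℝ) : Measure X :=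
  (μ (Metric.closedBall o R))⁻¹ • μ.restrict (Metric.closedBall o R)

theorem ot_cut_mono (o : X) : Monotone (fun n : ℕ => Metric.closedBall o (n : ℝ)) := by
  intro a b hab
  exact Metric.closedBall_subset_closedBall (by exact_mod_cast hab)

theorem ot_cut_iUnion (o : X) : (⋃ n : ℕ, Metric.closedBall o (n : ℝ)) = univ := by
  refine eq_univ_of_forall fun x => ?_
  obtain ⟨n, hn⟩ := exists_nat_ge (dist x o)
  exact mem_iUnion.2 ⟨n, Metric.mem_closedBall.2 hn⟩

theorem ot_cut_mass (μ : Measure X) [IsProbabilityMeasure μ] (o : X) :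
    Tendsto (fun n : ℕ => μ (Metric.closedBall o n)) atTop (𝓝 1) := by
  have h := tendsto_measure_iUnion_atTop (μ := μ) (ot_cut_mono o)
  rw [ot_cut_iUnion o, measure_univ] at h
  exact h

theorem ot_cut_prob (μ : Measure X) [IsProbabilityMeasure μ] (o : X) (R : ℝ) (h : μ (Metric.closedBall o R) ≠ 0) :
    IsProbabilityMeasure (ot_cut μ o R) := by
  refine ⟨?_⟩
  unfold ot_cut
  rw [Measure.smul_apply, Measure.restrict_apply MeasurableSet.univ, univ_inter, smul_eq_mul]
  exact ENNReal.inv_mul_cancel h (measure_ne_top μ _)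

theorem ot_cut_conc (μ : Measure X) (o : X) (R : ℝ) : ot_cut μ o R (Metric.closedBall o R)ᶜ = 0 := by
  unfold ot_cut
  rw [Measure.smul_apply, Measure.restrict_apply Metric.isClosed_closedBall.measurableSet.compl,
    compl_inter_self, measure_empty, smul_zero]

theorem ot_cut_wconv (μ : Measure X) [IsProbabilityMeasure μ] (o : X) :
    ot_WConv (fun n : ℕ => ot_cut μ o n) μ := by
  intro f
  have hf : Integrable (fun x => f x) μ := f.integrable μ
  have h1 : Tendsto (fun n : ℕ => ∫ x in Metric.closedBall o (n : ℝ), f x ∂μ) atTop (𝓝 (∫ x, f x ∂μ)) := by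
    have h := tendsto_setIntegral_of_monotone (μ := μ) (f := fun x => f x)
      (s := fun n : ℕ => Metric.closedBall o (n : ℝ))
      (fun n => Metric.isClosed_closedBall.measurableSet) (ot_cut_mono o) hf.integrableOn
    rw [ot_cut_iUnion o, setIntegral_univ] at h
    exact h
  have h2 : Tendsto (fun n : ℕ => ((μ (Metric.closedBall o (n : ℝ)))⁻¹).toReal) atTop (𝓝 1) := by
    have h3 : Tendsto (fun n : ℕ => (μ (Metric.closedBall o (n : ℝ)))⁻¹) atTop (𝓝 (1 : ℝ≥0∞)⁻¹) :=
      (ot_cut_mass μ o).inv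
    rw [inv_one] at h3
    have h4 := (ENNReal.tendsto_toReal ENNReal.one_ne_top).comp h3
    simpa [Function.comp_def] using h4
  have h5 := h2.mul h1
  rw [one_mul] at h5
  refine h5.congr (fun n => ?_)
  unfold ot_cut
  rw [integral_smul_measure, smul_eq_mul]

theorem ot_add_sq_le (a b : ℝ≥0∞) : (a + b) ^ 2 ≤ 4 * a ^ 2 + 4 * b ^ 2 := by
  rcases le_total a b with h | h
  · calc (a + b) ^ 2 ≤ (b + b) ^ 2 := by gcongr
      _ = 4 * b ^ 2 := by ring
      _ ≤ 4 * a ^ 2 + 4 * b ^ 2 := le_add_self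
  · calc (a + b) ^ 2 ≤ (a + a) ^ 2 := by gcongr
      _ = 4 * a ^ 2 := by ring
      _ ≤ 4 * a ^ 2 + 4 * b ^ 2 := le_self_add

theorem ot_secondMoment_base (μ : Measure X) [IsProbabilityMeasure μ] (hμ : HasSecondMoment μ) (o : X) :
    ∫⁻ x, edist x o ^ 2 ∂μ ≠ ∞ := by
  obtain ⟨o', ho'⟩ := hμ
  have h1 : ∫⁻ x, edist x o ^ 2 ∂μ ≤ ∫⁻ x, (4 * edist x o' ^ 2 + 4 * edist o' o ^ 2) ∂μ := by
    apply lintegral_mono
    intro x
    exact (pow_le_pow_left₀ zero_le (edist_triangle x o' o) 2).trans (ot_add_sq_le _ _)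
  have hmeas : Measurable fun x : X => 4 * edist x o' ^ 2 :=
    ((measurable_id.edist measurable_const).pow_const 2).const_mul 4
  rw [lintegral_add_left hmeas, lintegral_const_mul' _ _ (by norm_num), lintegral_const, measure_univ,
    mul_one] at h1
  refine (h1.trans_lt ?_).ne
  refine ENNReal.add_lt_top.2 ⟨ENNReal.mul_lt_top (by norm_num) ho', ENNReal.mul_lt_top (by norm_num) ?_⟩
  exact ENNReal.pow_lt_top (edist_lt_top _ _)

theorem ot_cut_tail (μ : Measure X) [IsProbabilityMeasure μ] (hμ : HasSecondMoment μ) (o : X) :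
    Tendsto (fun n : ℕ => (n : ℝ) ^ 2 * μ.real (Metric.closedBall o n)ᶜ) atTop (𝓝 0) := by
  have hfin := ot_secondMoment_base μ hμ o
  have hc : Tendsto (μ ∘ fun n : ℕ => (Metric.closedBall o (n : ℝ))ᶜ) atTop (𝓝 0) := by
    have h1 : Tendsto (fun n : ℕ => 1 - μ (Metric.closedBall o n)) atTop (𝓝 (1 - 1)) :=
      ENNReal.Tendsto.sub tendsto_const_nhds (ot_cut_mass μ o) (Or.inl ENNReal.one_ne_top)
    rw [tsub_self] at h1
    refine h1.congr fun n => ?_
    simp only [Function.comp]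
    rw [prob_compl_eq_one_sub Metric.isClosed_closedBall.measurableSet]
  have h2 := tendsto_setLIntegral_zero hfin hc
  have h3 : ∀ n : ℕ, (n : ℝ≥0∞) ^ 2 * μ (Metric.closedBall o n)ᶜ ≤
      ∫⁻ x in (Metric.closedBall o (n : ℝ))ᶜ, edist x o ^ 2 ∂μ := by
    intro n
    rw [← setLIntegral_const]
    apply setLIntegral_mono' Metric.isClosed_closedBall.measurableSet.compl
    intro x hx
    have hx' : (n : ℝ) < dist x o := by simpa [Metric.mem_closedBall] using hx
    apply pow_le_pow_left₀ zero_le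
    rw [edist_dist, ← ENNReal.ofReal_natCast]
    exact ENNReal.ofReal_le_ofReal hx'.le
  have h4 : Tendsto (fun n : ℕ => (n : ℝ≥0∞) ^ 2 * μ (Metric.closedBall o n)ᶜ) atTop (𝓝 0) :=
    tendsto_of_tendsto_of_tendsto_of_le_of_le tendsto_const_nhds h2 (fun _ => zero_le) h3
  have h5 := (ENNReal.tendsto_toReal ENNReal.zero_ne_top).comp h4
  refine h5.congr fun n => ?_
  simp [Function.comp, Measure.real, ENNReal.toReal_mul]

theorem ot_integrable_of_bdd (μ : Measure X) [IsProbabilityMeasure μ] {a : X → ℝ} {T : ℝ} (ha : Continuous a)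
    (hT : ∀ x, |a x| ≤ T) : Integrable a μ :=
  Integrable.of_bound ha.aestronglyMeasurable T (Eventually.of_forall fun x => by simpa using hT x)

theorem ot_cut_integral (μ : Measure X) (o : X) (R : ℝ) (a : X → ℝ) :
    ∫ x, a x ∂(ot_cut μ o R) = (μ.real (Metric.closedBall o R))⁻¹ * ∫ x in Metric.closedBall o R, a x ∂μ := by
  unfold ot_cut
  rw [integral_smul_measure, ENNReal.toReal_inv, smul_eq_mul]
  rfl

theorem ot_cut_integral_le_of_nonneg (μ : Measure X) [IsProbabilityMeasure μ] (o : X) (R : ℝ)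
    (h : μ (Metric.closedBall o R) ≠ 0) {a : X → ℝ} {T : ℝ} (ha : Continuous a) (h0 : ∀ x, 0 ≤ a x)
    (hT : ∀ x, a x ≤ T) :
    ∫ x, a x ∂(ot_cut μ o R) ≤
      ∫ x, a x ∂μ + T * μ.real (Metric.closedBall o R)ᶜ / μ.real (Metric.closedBall o R) := by
  have hint : Integrable a μ := ot_integrable_of_bdd μ ha (fun x => by rw [abs_of_nonneg (h0 x)]; exact hT x)
  have hm0 : 0 < μ.real (Metric.closedBall o R) := ENNReal.toReal_pos h (measure_ne_top _ _)
  have hm1 : μ.real (Metric.closedBall o R) ≤ 1 := measureReal_le_one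
  have hc : μ.real (Metric.closedBall o R)ᶜ = 1 - μ.real (Metric.closedBall o R) :=
    probReal_compl_eq_one_sub Metric.isClosed_closedBall.measurableSet
  have h1 : ∫ x in Metric.closedBall o R, a x ∂μ ≤ ∫ x, a x ∂μ :=
    setIntegral_le_integral hint (Eventually.of_forall h0)
  have h2 : ∫ x, a x ∂μ ≤ T := by
    have := integral_mono hint (integrable_const T) hT
    simpa using this
  rw [ot_cut_integral, hc]
  set m := μ.real (Metric.closedBall o R)
  set I := ∫ x, a x ∂μ
  set IB := ∫ x in Metric.closedBall o R, a x ∂μ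
  have h3 : m⁻¹ * IB ≤ m⁻¹ * I := mul_le_mul_of_nonneg_left h1 (inv_nonneg.2 hm0.le)
  have h4 : m⁻¹ * I = I + I * (1 - m) / m := by
    field_simp
    ring
  have h5 : I * (1 - m) / m ≤ T * (1 - m) / m := by
    apply div_le_div_of_nonneg_right _ hm0.le
    exact mul_le_mul_of_nonneg_right h2 (by linarith)
  linarith

theorem ot_cut_integral_le_of_nonpos (μ : Measure X) [IsProbabilityMeasure μ] (o : X) (R : ℝ)
    (h : μ (Metric.closedBall o R) ≠ 0) {b : X → ℝ} {T : ℝ} (hb : Continuous b) (h0 : ∀ x, b x ≤ 0)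
    (hT : ∀ x, -T ≤ b x) :
    ∫ x, b x ∂(ot_cut μ o R) ≤ ∫ x, b x ∂μ + T * μ.real (Metric.closedBall o R)ᶜ := by
  have hint : Integrable b μ := ot_integrable_of_bdd μ hb (fun x => by
    rw [abs_of_nonpos (h0 x)]; linarith [hT x])
  have hm0 : 0 < μ.real (Metric.closedBall o R) := ENNReal.toReal_pos h (measure_ne_top _ _)
  have hm1 : μ.real (Metric.closedBall o R) ≤ 1 := measureReal_le_one
  have hB : MeasurableSet (Metric.closedBall o R) := Metric.isClosed_closedBall.measurableSet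
  have h1 : ∫ x in Metric.closedBall o R, b x ∂μ ≤ 0 :=
    integral_nonpos h0
  have h2 := integral_add_compl hB hint
  have h3 : -T * μ.real (Metric.closedBall o R)ᶜ ≤ ∫ x in (Metric.closedBall o R)ᶜ, b x ∂μ := by
    have := setIntegral_mono (μ := μ) (s := (Metric.closedBall o R)ᶜ) (f := fun _ => -T) (g := b)
      (integrable_const _).integrableOn hint.integrableOn hT
    rw [setIntegral_const, smul_eq_mul] at this
    linarith
  rw [ot_cut_integral]
  have h4 : 1 ≤ (μ.real (Metric.closedBall o R))⁻¹ := (one_le_inv₀ hm0).2 hm1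
  nlinarith

/-- the estimate at a fixed radius -/
theorem ot_strong_aux [ProperSpace X] {μ ν : Measure X} [IsProbabilityMeasure μ] [IsProbabilityMeasure ν] {B : ℝ}
    (h : ∀ φ : X → ℝ, LipB φ → ∫ y, hopfLax 1 φ y ∂ν - ∫ x, φ x ∂μ ≤ B) (o : X) {R : ℝ} (hR : 0 ≤ R)
    (h1 : μ (Metric.closedBall o R) ≠ 0) (h2 : ν (Metric.closedBall o R) ≠ 0) :
    W2sq (ot_cut μ o R) (ot_cut ν o R) ≤ ENNReal.ofReal (2 * (B +
      2 * (R ^ 2 * μ.real (Metric.closedBall o R)ᶜ) / μ.real (Metric.closedBall o R) +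
      2 * (R ^ 2 * ν.real (Metric.closedBall o R)ᶜ))) := by
  have hSc : IsCompact (Metric.closedBall o R) := isCompact_closedBall o R
  have p1 : IsProbabilityMeasure (ot_cut μ o R) := ot_cut_prob μ o R h1
  have p2 : IsProbabilityMeasure (ot_cut ν o R) := ot_cut_prob ν o R h2
  obtain ⟨φ, hφ0, hφle, -, hφL, hφK⟩ := ot_exists_kpair (ot_cut μ o R) (ot_cut ν o R) hSc hSc
    (ot_cut_conc μ o R) (ot_cut_conc ν o R)
  obtain ⟨T, hT⟩ : ∃ T : ℝ, T = 2 * R ^ 2 := ⟨_, rfl⟩
  have hT0 : 0 ≤ T := by rw [hT]; positivity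
  have hdist : ∀ x ∈ Metric.closedBall o R, ∀ y ∈ Metric.closedBall o R, dist x y ≤ 2 * R := by
    intro x hx y hy
    have h3 := dist_triangle_right x y o
    have hx' : dist x o ≤ R := hx
    have hy' : dist y o ≤ R := hy
    linarith
  have hφT : ∀ x ∈ Metric.closedBall o R, φ x ≤ T := by
    intro x hx
    have h3 := hφle x (2 * R) (fun y hy => hdist x hx y hy)
    rw [hT]
    nlinarith
  have hK : KPair (ot_cut μ o R) (ot_cut ν o R) (fun x => min (φ x) T)
      (hopfLax 1 (fun x => - min (φ x) T)) := hφK T hφT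
  obtain ⟨hLa, hLb, hb⟩ := hφL T (2 * R) hT0 hdist
  have ha0 : ∀ x, 0 ≤ min (φ x) T := fun x => le_min (hφ0 x) hT0
  have haT : ∀ x, min (φ x) T ≤ T := fun x => min_le_right _ _
  have heq := ot_kpair_eq hK
  have hfin := ot_kpair_finite hK
  have hLipB : LipB (fun x => - min (φ x) T) :=
    ⟨⟨_, hLa.neg⟩, ⟨T, fun x => by rw [abs_neg, abs_of_nonneg (ha0 x)]; exact haT x⟩⟩
  have hh := h (fun x => - min (φ x) T) hLipB
  rw [integral_neg] at hh
  have i1 := ot_cut_integral_le_of_nonneg μ o R h1 hLa.continuous ha0 haT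
  have i2 := ot_cut_integral_le_of_nonpos ν o R h2 hLb.continuous (fun y => (hb y).2) (fun y => (hb y).1)
  have e : W2sq (ot_cut μ o R) (ot_cut ν o R) = ENNReal.ofReal (W2sqR (ot_cut μ o R) (ot_cut ν o R)) :=
    (ENNReal.ofReal_toReal hfin).symm
  rw [e]
  apply ENNReal.ofReal_le_ofReal
  have e1 : T * μ.real (Metric.closedBall o R)ᶜ / μ.real (Metric.closedBall o R)
      = 2 * (R ^ 2 * μ.real (Metric.closedBall o R)ᶜ) / μ.real (Metric.closedBall o R) := by
    rw [hT]; ring
  have e2 : T * ν.real (Metric.closedBall o R)ᶜ = 2 * (R ^ 2 * ν.real (Metric.closedBall o R)ᶜ) := by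
    rw [hT]; ring
  rw [e1] at i1
  rw [e2] at i2
  linarith

theorem ot_strong_duality [ProperSpace X] {μ ν : Measure X} [IsProbabilityMeasure μ] [IsProbabilityMeasure ν]
    (hμ : HasSecondMoment μ) (hν : HasSecondMoment ν) {B : ℝ}
    (h : ∀ φ : X → ℝ, LipB φ → ∫ y, hopfLax 1 φ y ∂ν - ∫ x, φ x ∂μ ≤ B) : W2sqR μ ν / 2 ≤ B := by
  obtain ⟨o, -⟩ := id hμ
  -- `0 ≤ B` (test with `φ = 0`)
  have hB0 : 0 ≤ B := by
    have h0 := h (fun _ => 0) ⟨⟨0, LipschitzWith.const 0⟩, ⟨0, fun _ => by simp⟩⟩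
    have h1 : 0 ≤ ∫ y, hopfLax 1 (fun _ : X => (0 : ℝ)) y ∂ν :=
      integral_nonneg fun y => ot_le_hopfLax _ y fun x => by positivity
    simp only [integral_zero, sub_zero] at h0
    exact h1.trans h0
  have m1 := ot_cut_mass μ o
  have m2 := ot_cut_mass ν o
  obtain ⟨n₀, hn₀⟩ := eventually_atTop.1
    ((m1.eventually_ne one_ne_zero).and (m2.eventually_ne one_ne_zero))
  set err : ℕ → ℝ := fun n =>
    2 * ((n : ℝ) ^ 2 * μ.real (Metric.closedBall o n)ᶜ) / μ.real (Metric.closedBall o n) +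
      2 * ((n : ℝ) ^ 2 * ν.real (Metric.closedBall o n)ᶜ) with herr_def
  have herr : Tendsto err atTop (𝓝 0) := by
    have t1 := ot_cut_tail μ hμ o
    have t2 := ot_cut_tail ν hν o
    have m1' : Tendsto (fun n : ℕ => μ.real (Metric.closedBall o n)) atTop (𝓝 1) := by
      have := (ENNReal.tendsto_toReal ENNReal.one_ne_top).comp m1
      simpa [Function.comp_def, Measure.real] using this
    have := ((t1.const_mul 2).div m1' one_ne_zero).add (t2.const_mul 2)
    simpa using this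
  have hmono : StrictMono (fun n : ℕ => n + n₀) := fun a b hab => Nat.add_lt_add_right hab n₀
  have hl := ot_lsc (μs := (fun n : ℕ => ot_cut μ o n) ∘ fun n : ℕ => n + n₀)
    (νs := (fun n : ℕ => ot_cut ν o n) ∘ fun n : ℕ => n + n₀)
    (fun n => ot_cut_prob μ o _ (hn₀ _ (Nat.le_add_left _ _)).1)
    (fun n => ot_cut_prob ν o _ (hn₀ _ (Nat.le_add_left _ _)).2) inferInstance inferInstance
    (ot_wconv_subseq (ot_cut_wconv μ o) hmono) (ot_wconv_subseq (ot_cut_wconv ν o) hmono)
  have key : ∀ ε > 0, W2sq μ ν ≤ ENNReal.ofReal (2 * (B + ε)) := by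
    intro ε hε
    refine hl.trans ?_
    have hev : ∀ᶠ n : ℕ in atTop, err (n + n₀) < ε :=
      (tendsto_add_atTop_iff_nat n₀).2 herr |>.eventually (gt_mem_nhds hε)
    refine Filter.liminf_le_of_frequently_le' (Eventually.frequently ?_)
    filter_upwards [hev] with n hn
    have haux := ot_strong_aux h o (R := ((n + n₀ : ℕ) : ℝ)) (Nat.cast_nonneg _)
      (hn₀ _ (Nat.le_add_left _ _)).1 (hn₀ _ (Nat.le_add_left _ _)).2
    refine haux.trans (ENNReal.ofReal_le_ofReal ?_)
    have : err (n + n₀) < ε := hn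
    simp only [herr_def] at this
    linarith
  have key2 : ∀ ε > 0, W2sqR μ ν / 2 ≤ B + ε := by
    intro ε hε
    have := ENNReal.toReal_le_of_le_ofReal (by positivity) (key ε hε)
    unfold W2sqR
    linarith
  exact le_of_forall_pos_le_add key2

end Claimed.Agent.R210.OT.Strong
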