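/-
Row 210 (S0432), layer OT (optimal transport), architect helper578.   OT8': strong duality, hypothesis only for nonnegative Lipschitz functions with compact support.
Master plan: `git show origin/helper928:docs/R210_master.md`; map of the layer: header of `R210/OT/Ifc.lean`.
-/
import Claimed.Agent.R210.OT.Strong
import Claimed.Agent.R210.HL.Ifc

set_option autoImplicit false

open Claims.C0366 Claims.C0366.WeakHessian
open Set Filter MeasureTheory
open scoped ENNReal NNReal Topology BoundedContinuousFunction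
open Claimed.Agent.R210.Defs Claimed.Agent.R210.OT.Defs

namespace Claimed.Agent.R210.OT.Strong2

open Claimed.Agent.R210.OT.Weak Claimed.Agent.R210.OT.Basic Claimed.Agent.R210.OT.Exist Claimed.Agent.R210.OT.Dual Claimed.Agent.R210.OT.HLip Claimed.Agent.R210.OT.KPair Claimed.Agent.R210.OT.Lsc Claimed.Agent.R210.OT.Strong

variable {X : Type*} [MetricSpace X] [MeasurableSpace X] [BorelSpace X] [CompleteSpace X]
  [TopologicalSpace.SeparableSpace X]

/-- a bounded continuous function is integrable w.r.t. a probability measure -/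
theorem ot_integrable_of_bdd (μ : Measure X) [IsProbabilityMeasure μ] {f : X → ℝ} (hf : Continuous f) {T : ℝ}
    (hT : ∀ x, |f x| ≤ T) : Integrable f μ :=
  Integrable.of_bound hf.aestronglyMeasurable T (Eventually.of_forall fun x => by simpa using hT x)

/-- the estimate at a fixed radius, hypothesis on `LipC`, nonnegative functions only -/
theorem ot_strong_aux' [ProperSpace X] {μ ν : Measure X} [IsProbabilityMeasure μ] [IsProbabilityMeasure ν] {B : ℝ}
    (h : ∀ u : X → ℝ, LipC u → (∀ x, 0 ≤ u x) → ∫ y, hopfLax 1 u y ∂ν - ∫ x, u x ∂μ ≤ B) (o : X) {R : ℝ}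
    (hR : 0 ≤ R) (h1 : μ (Metric.closedBall o R) ≠ 0) (h2 : ν (Metric.closedBall o R) ≠ 0) :
    W2sq (ot_cut μ o R) (ot_cut ν o R) ≤ ENNReal.ofReal (2 * (B +
      2 * (R ^ 2 * μ.real (Metric.closedBall o R)ᶜ) / μ.real (Metric.closedBall o R) +
      2 * (R ^ 2 * ν.real (Metric.closedBall o R)ᶜ))) := by
  have hS : IsCompact (Metric.closedBall o R) := isCompact_closedBall o R
  have p1 : IsProbabilityMeasure (ot_cut μ o R) := ot_cut_prob μ o R h1
  have p2 : IsProbabilityMeasure (ot_cut ν o R) := ot_cut_prob ν o R h2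
  obtain ⟨φ, c1, c2, c3, -, c5, c6⟩ := ot_exists_kpair_full (ot_cut μ o R) (ot_cut ν o R) hS hS
    (ot_cut_conc μ o R) (ot_cut_conc ν o R)
  set T : ℝ := 2 * R ^ 2 with hTdef
  have hT0 : 0 ≤ T := by positivity
  have hdist : ∀ x ∈ Metric.closedBall o R, ∀ y ∈ Metric.closedBall o R, dist x y ≤ 2 * R := by
    intro x hx y hy
    have h3 := dist_triangle_right x y o
    rw [Metric.mem_closedBall] at hx hy
    linarith
  have hφS : ∀ x ∈ Metric.closedBall o R, φ x ≤ T := by
    intro x hx
    have := c2 x (2 * R) (hdist x hx)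
    rw [hTdef]; nlinarith
  have hk := c6 T hφS
  obtain ⟨la, lb, hb⟩ := c5 T (2 * R) hT0 hdist
  set a : X → ℝ := fun x => min (φ x) T with ha
  set b : X → ℝ := hopfLax 1 (fun x => - a x) with hbdef
  have ha0 : ∀ x, 0 ≤ a x := fun x => le_min (c1 x) hT0
  have haT : ∀ x, a x ≤ T := fun x => min_le_right _ _
  -- the test function
  have hu : LipC (fun x => T - a x) := by
    refine ⟨⟨_, (LipschitzWith.const T).sub la⟩, ?_⟩
    refine HasCompactSupport.of_support_subset_isCompact (isCompact_closedBall o (3 * R)) ?_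
    intro x hx
    by_contra hcon
    rw [Metric.mem_closedBall, not_le] at hcon
    apply hx
    have h3 : (2 * R) ^ 2 / 2 ≤ φ x := by
      refine c3 x (2 * R) (by positivity) fun y hy => ?_
      rw [Metric.mem_closedBall] at hy
      have := dist_triangle x y o
      linarith
    have h4 : a x = T := by
      rw [ha]
      refine min_eq_right ?_
      rw [hTdef]; nlinarith
    simp [h4]
  have hQ : ∀ y, hopfLax 1 (fun x => T - a x) y = b y + T := by
    intro y
    have := Claimed.Agent.R210.HL.Ifc.hl1_add_const (u := fun x => - a x) la.neg T 1 y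
    rw [hbdef, ← this]
    congr 1
    funext z
    ring
  have hmain := h _ hu (fun x => by have := haT x; linarith)
  have ia : ∀ (ρ : Measure X) [IsProbabilityMeasure ρ], Integrable a ρ := fun ρ _ =>
    ot_integrable_of_bdd ρ la.continuous (T := T) fun x => by
      rw [abs_le]; exact ⟨by have := ha0 x; linarith, haT x⟩
  have ib : ∀ (ρ : Measure X) [IsProbabilityMeasure ρ], Integrable b ρ := fun ρ _ =>
    ot_integrable_of_bdd ρ lb.continuous (T := T) fun x => by
      rw [abs_le]; exact ⟨(hb x).1, (hb x).2.trans hT0⟩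
  have hmain2 : ∫ y, b y ∂ν + ∫ x, a x ∂μ ≤ B := by
    simp only [hQ] at hmain
    rw [integral_add (ib ν) (integrable_const T), integral_sub (integrable_const T) (ia μ)] at hmain
    simp only [integral_const, probReal_univ, smul_eq_mul, one_mul] at hmain
    linarith
  have e1 := ot_cut_integral_le_of_nonneg μ o R h1 la.continuous ha0 haT
  have e2 := ot_cut_integral_le_of_nonpos ν o R h2 lb.continuous (fun x => (hb x).2) (fun x => (hb x).1)
  have heq := ot_kpair_eq hk
  have hfin := ot_kpair_finite hk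
  have hW : W2sq (ot_cut μ o R) (ot_cut ν o R) = ENNReal.ofReal (W2sqR (ot_cut μ o R) (ot_cut ν o R)) := by
    unfold W2sqR
    rw [ENNReal.ofReal_toReal hfin]
  rw [hW]
  refine ENNReal.ofReal_le_ofReal ?_
  have e3 : T * μ.real (Metric.closedBall o R)ᶜ / μ.real (Metric.closedBall o R) =
      2 * (R ^ 2 * μ.real (Metric.closedBall o R)ᶜ) / μ.real (Metric.closedBall o R) := by
    rw [hTdef]; ring
  have e4 : T * ν.real (Metric.closedBall o R)ᶜ = 2 * (R ^ 2 * ν.real (Metric.closedBall o R)ᶜ) := by
    rw [hTdef]; ring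
  rw [e3] at e1
  rw [e4] at e2
  linarith

/-- **OT8'**: strong duality; the hypothesis is required only for nonnegative Lipschitz functions with compact support. -/
theorem ot_strong_duality' [ProperSpace X] {μ ν : Measure X} [IsProbabilityMeasure μ] [IsProbabilityMeasure ν]
    (hμ : HasSecondMoment μ) (hν : HasSecondMoment ν) {B : ℝ}
    (h : ∀ u : X → ℝ, LipC u → (∀ x, 0 ≤ u x) → ∫ y, hopfLax 1 u y ∂ν - ∫ x, u x ∂μ ≤ B) :
    W2sqR μ ν / 2 ≤ B := by
  obtain ⟨o, -⟩ := id hμ
  -- `0 ≤ B` (test with `u = 0`)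
  have hB0 : 0 ≤ B := by
    have h0 := h (fun _ => 0) ⟨⟨0, LipschitzWith.const 0⟩, HasCompactSupport.zero⟩ (fun _ => le_rfl)
    have h1 : 0 ≤ ∫ y, hopfLax 1 (fun _ : X => (0 : ℝ)) y ∂ν :=
      integral_nonneg fun y => ot_le_hopfLax _ y fun x => by positivity
    simp only [integral_zero, sub_zero] at h0
    exact h1.trans h0
  have m1 := ot_cut_mass μ o
  have m2 := ot_cut_mass ν o
  obtain ⟨n₀, hn₀⟩ := eventually_atTop.1
    ((m1.eventually_ne one_ne_zero).and (m2.eventually_ne one_ne_zero))
  set err : ℕ → ℝ := fun n =>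
    2 * ((n : ℝ) ^ 2 * μ.real (Metric.closedBall o n)ᶜ) / μ.real (Metric.closedBall o n) +
      2 * ((n : ℝ) ^ 2 * ν.real (Metric.closedBall o n)ᶜ) with herr_def
  have herr : Tendsto err atTop (𝓝 0) := by
    have t1 := ot_cut_tail μ hμ o
    have t2 := ot_cut_tail ν hν o
    have m1' : Tendsto (fun n : ℕ => μ.real (Metric.closedBall o n)) atTop (𝓝 1) := by
      have := (ENNReal.tendsto_toReal ENNReal.one_ne_top).comp m1
      simpa [Function.comp_def, Measure.real] using this
    have := ((t1.const_mul 2).div m1' one_ne_zero).add (t2.const_mul 2)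
    simpa using this
  have hmono : StrictMono (fun n : ℕ => n + n₀) := fun a b hab => Nat.add_lt_add_right hab n₀
  have hl := ot_lsc (μs := (fun n : ℕ => ot_cut μ o n) ∘ fun n : ℕ => n + n₀)
    (νs := (fun n : ℕ => ot_cut ν o n) ∘ fun n : ℕ => n + n₀)
    (fun n => ot_cut_prob μ o _ (hn₀ _ (Nat.le_add_left _ _)).1)
    (fun n => ot_cut_prob ν o _ (hn₀ _ (Nat.le_add_left _ _)).2) inferInstance inferInstance
    (ot_wconv_subseq (ot_cut_wconv μ o) hmono) (ot_wconv_subseq (ot_cut_wconv ν o) hmono)
  have key : ∀ ε > 0, W2sq μ ν ≤ ENNReal.ofReal (2 * (B + ε)) := by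
    intro ε hε
    refine hl.trans ?_
    have hev : ∀ᶠ n : ℕ in atTop, err (n + n₀) < ε :=
      (tendsto_add_atTop_iff_nat n₀).2 herr |>.eventually (gt_mem_nhds hε)
    refine Filter.liminf_le_of_frequently_le' (Eventually.frequently ?_)
    filter_upwards [hev] with n hn
    have haux := ot_strong_aux' h o (R := ((n + n₀ : ℕ) : ℝ)) (Nat.cast_nonneg _)
      (hn₀ _ (Nat.le_add_left _ _)).1 (hn₀ _ (Nat.le_add_left _ _)).2
    refine haux.trans (ENNReal.ofReal_le_ofReal ?_)
    have : err (n + n₀) < ε := hn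
    simp only [herr_def] at this
    linarith
  have key2 : ∀ ε > 0, W2sqR μ ν / 2 ≤ B + ε := by
    intro ε hε
    have := ENNReal.toReal_le_of_le_ofReal (by positivity) (key ε hε)
    unfold W2sqR
    linarith
  exact le_of_forall_pos_le_add key2

end Claimed.Agent.R210.OT.Strong2
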